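import Vale.Agent.P154.Defs

/-!
Expectations over Poisson Galton-Watson trees, computed through the children of the root.
-/

namespace Vale.Agent.P154.GW

/-- The Poisson weights. -/
noncomputable def pois (d : ℝ) (k : ℕ) : ℝ := Real.exp (-d) * d ^ k / (Nat.factorial k : ℝ)

theorem pois_nonneg {d : ℝ} (hd : 0 ≤ d) (k : ℕ) : 0 ≤ pois d k := by
  unfold pois; positivity

theorem hasSum_pois_pow (d s : ℝ) :
    HasSum (fun k => pois d k * s ^ k) (Real.exp (-d * (1 - s))) := by
  have h := (NormedSpace.expSeries_div_hasSum_exp (d * s)).mul_left (Real.exp (-d))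
  rw [← Real.exp_eq_exp_ℝ, ← Real.exp_add, show -d + d * s = -d * (1 - s) by ring] at h
  have e : (fun k => pois d k * s ^ k) =
      fun k => Real.exp (-d) * ((d * s) ^ k / (Nat.factorial k : ℝ)) := by
    funext k; rw [pois, mul_pow]; ring
  rw [e]
  exact h

theorem hasSum_pois (d : ℝ) : HasSum (pois d) 1 := by
  simpa using hasSum_pois_pow d 1

theorem hasSum_pois_natCast (d : ℝ) : HasSum (fun k => pois d k * k) d := by
  rw [← hasSum_nat_add_iff' 1]
  simp only [Finset.range_one, Finset.sum_singleton, Nat.cast_zero, mul_zero, sub_zero]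
  have h := (hasSum_pois d).mul_left d
  rw [mul_one] at h
  have e : (fun k => pois d (k + 1) * ((k + 1 : ℕ) : ℝ)) = fun k => d * pois d k := by
    funext k
    simp only [pois, Nat.factorial_succ, Nat.cast_mul, Nat.cast_add, Nat.cast_one, pow_succ]
    field_simp
  rw [e]
  exact h

theorem hasSum_pois_pairs (d : ℝ) :
    HasSum (fun k => pois d k * ((k : ℝ) * ((k : ℝ) - 1))) (d ^ 2) := by
  rw [← hasSum_nat_add_iff' 1]
  simp only [Finset.range_one, Finset.sum_singleton, Nat.cast_zero, zero_mul, mul_zero, sub_zero]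
  have h := (hasSum_pois_natCast d).mul_left d
  rw [← sq] at h
  have e : (fun k => pois d (k + 1) * (((k + 1 : ℕ) : ℝ) * (((k + 1 : ℕ) : ℝ) - 1))) =
      fun k => d * (pois d k * k) := by
    funext k
    simp only [pois, Nat.factorial_succ, Nat.cast_mul, Nat.cast_add, Nat.cast_one, pow_succ,
      add_sub_cancel_right]
    field_simp
  rw [e]
  exact h

/-- A product of series is a series over tuples. -/
theorem hasSum_pi_prod {α : Type*} : ∀ (k : ℕ) (g : Fin k → α → ℝ) (s : Fin k → ℝ),
    (∀ c, HasSum (g c) (s c)) → HasSum (fun x : Fin k → α => ∏ c, g c (x c)) (∏ c, s c) := by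
  intro k
  induction k with
  | zero => intro g s _; simp [hasSum_unique]
  | succ k ih =>
    intro g s h
    have h0 := h 0
    have h1 := ih (fun c => g c.succ) (fun c => s c.succ) fun c => h c.succ
    have hsum := summable_mul_of_summable_norm h0.summable.norm h1.summable.norm
    have hm := h0.mul h1 hsum
    rw [← (Fin.consEquiv fun _ => α).hasSum_iff]
    simpa [Function.comp_def, Fin.prod_univ_succ, Fin.consEquiv] using hm

theorem gwWeight_nonneg {d : ℝ} (hd : 0 ≤ d) : ∀ (n : ℕ) (T : Tree n), 0 ≤ gwWeight d n T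
  | 0, _ => by simp [gwWeight]
  | n + 1, T => by
    rw [gwWeight]
    exact mul_nonneg (pois_nonneg hd T.1) (Finset.prod_nonneg fun c _ => gwWeight_nonneg hd n _)

theorem gwWeight_succ (d : ℝ) (n k : ℕ) (x : Fin k → Tree n) :
    gwWeight d (n + 1) ⟨k, x⟩ = pois d k * ∏ c, gwWeight d n (x c) := rfl

/-- A function of depth `n + 1` is averaged by averaging each fibre of the root degree. -/
theorem hasSum_of_fibres {d : ℝ} (hd : 0 ≤ d) (n : ℕ) (F : Tree (n + 1) → ℝ) (A : ℕ → ℝ)
    (a : ℝ)
    (hA : ∀ k, HasSum (fun x : Fin k → Tree n =>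
      (∏ c, gwWeight d n (x c)) * F ⟨k, x⟩) (A k))
    (ha : HasSum (fun k => pois d k * A k) a)
    (habs : Summable fun k => pois d k * ∑' x : Fin k → Tree n,
      (∏ c, gwWeight d n (x c)) * |F ⟨k, x⟩|) :
    HasSum (fun T => gwWeight d (n + 1) T * F T) a := by
  change HasSum (fun T : Σ k : ℕ, Fin k → Tree n => gwWeight d (n + 1) T * F T) a
  have hfib : ∀ k, HasSum (fun x : Fin k → Tree n => gwWeight d (n + 1) ⟨k, x⟩ * F ⟨k, x⟩)
      (pois d k * A k) := fun k => by
    simpa [gwWeight_succ, mul_assoc] using (hA k).mul_left (pois d k)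
  have hsum : Summable fun T : Σ k : ℕ, Fin k → Tree n => gwWeight d (n + 1) T * F T := by
    refine Summable.of_norm ?_
    refine (summable_sigma_of_nonneg fun T => norm_nonneg _).2 ⟨fun k => (hfib k).summable.norm, ?_⟩
    refine habs.congr fun k => ?_
    rw [← tsum_mul_left]
    refine tsum_congr fun x => ?_
    rw [gwWeight_succ, Real.norm_eq_abs, abs_mul,
      abs_of_nonneg (mul_nonneg (pois_nonneg hd k)
        (Finset.prod_nonneg fun c _ => gwWeight_nonneg hd n _))]
    ring
  exact ha.sigma_of_hasSum hfib hsum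

/-- The version for nonnegative functions. -/
theorem hasSum_of_fibres_nonneg {d : ℝ} (hd : 0 ≤ d) (n : ℕ) (F : Tree (n + 1) → ℝ)
    (hF : ∀ T, 0 ≤ F T) (A : ℕ → ℝ) (a : ℝ)
    (hA : ∀ k, HasSum (fun x : Fin k → Tree n =>
      (∏ c, gwWeight d n (x c)) * F ⟨k, x⟩) (A k))
    (ha : HasSum (fun k => pois d k * A k) a) :
    HasSum (fun T => gwWeight d (n + 1) T * F T) a := by
  refine hasSum_of_fibres hd n F A a hA ha (ha.summable.congr fun k => ?_)
  congr 1
  rw [← (hA k).tsum_eq]
  exact tsum_congr fun x => congrArg _ (abs_of_nonneg (hF _)).symm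

/-- Products over the children, within one fibre. -/
theorem hasSum_fibre_prod (d : ℝ) (n k : ℕ) (h : Fin k → Tree n → ℝ) (s : Fin k → ℝ)
    (hs : ∀ c, HasSum (fun T => gwWeight d n T * h c T) (s c)) :
    HasSum (fun x : Fin k → Tree n => (∏ c, gwWeight d n (x c)) * ∏ c, h c (x c))
      (∏ c, s c) := by
  have := hasSum_pi_prod k (fun c T => gwWeight d n T * h c T) s hs
  simp only [Finset.prod_mul_distrib] at this
  exact this

theorem hasSum_gwWeight {d : ℝ} (hd : 0 ≤ d) : ∀ n, HasSum (gwWeight d n) 1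
  | 0 => by
    haveI : Unique (Tree 0) := inferInstanceAs (Unique Unit)
    simpa [gwWeight] using hasSum_unique (gwWeight d 0)
  | n + 1 => by
    have h := hasSum_gwWeight hd n
    have := hasSum_of_fibres_nonneg hd n (fun _ => 1) (fun _ => zero_le_one) (fun _ => 1) 1
      (fun k => by simpa using hasSum_pi_prod k (fun _ => gwWeight d n) (fun _ => 1) fun _ => h)
      (by simpa using hasSum_pois d)
    simpa using this

/-- Bounded functions are integrable. -/
theorem summable_of_bounded {d : ℝ} (hd : 0 ≤ d) (n : ℕ) (f : Tree n → ℝ) (C : ℝ)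
    (hf : ∀ T, |f T| ≤ C) : Summable fun T => gwWeight d n T * f T := by
  refine Summable.of_norm_bounded (g := fun T => gwWeight d n T * C)
    ((hasSum_gwWeight hd n).summable.mul_right C) fun T => ?_
  rw [Real.norm_eq_abs, abs_mul, abs_of_nonneg (gwWeight_nonneg hd n T)]
  exact mul_le_mul_of_nonneg_left (hf T) (gwWeight_nonneg hd n T)

/-- `E[φ(k) ∏ h] = E[φ(k) s ^ k]`. -/
theorem hasSum_children_prod {d : ℝ} (hd : 0 ≤ d) (n : ℕ) (φ : ℕ → ℝ) (h : Tree n → ℝ)
    (s t a : ℝ) (hs : HasSum (fun T => gwWeight d n T * h T) s)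
    (ht : HasSum (fun T => gwWeight d n T * |h T|) t)
    (ha : HasSum (fun k => pois d k * (φ k * s ^ k)) a)
    (habs : Summable fun k => pois d k * (|φ k| * t ^ k)) :
    HasSum (fun T : Tree (n + 1) => gwWeight d (n + 1) T * (φ T.1 * ∏ c, h (T.2 c))) a := by
  refine hasSum_of_fibres hd n _ (fun k => φ k * s ^ k) a (fun k => ?_) ha
    (habs.congr fun k => ?_)
  · simpa [mul_left_comm] using (hasSum_fibre_prod d n k (fun _ => h) (fun _ => s)
      fun _ => hs).mul_left (φ k)
  · congr 1
    have := (hasSum_fibre_prod d n k (fun _ T => |h T|) (fun _ => t) fun _ => ht).mul_left (|φ k|)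
    rw [Finset.prod_const, Finset.card_univ, Fintype.card_fin] at this
    rw [← this.tsum_eq]
    refine tsum_congr fun x => ?_
    simp only [abs_mul, Finset.abs_prod]
    ring

/-- `E ∏ h = exp (-d (1 - E h))`. -/
theorem hasSum_prod_exp {d : ℝ} (hd : 0 ≤ d) (n : ℕ) (h : Tree n → ℝ) (s : ℝ)
    (hs : HasSum (fun T => gwWeight d n T * h T) s) :
    HasSum (fun T : Tree (n + 1) => gwWeight d (n + 1) T * ∏ c, h (T.2 c))
      (Real.exp (-d * (1 - s))) := by
  have habs : Summable fun T => gwWeight d n T * |h T| := hs.summable.abs.congr fun T => by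
    rw [abs_mul, abs_of_nonneg (gwWeight_nonneg hd n T)]
  have := hasSum_children_prod hd n (fun _ => 1) h s _ (Real.exp (-d * (1 - s))) hs habs.hasSum
    (by simpa using hasSum_pois_pow d s) (by simpa using (hasSum_pois_pow d _).summable)
  simpa using this

/-- One child, within one fibre. -/
theorem hasSum_fibre_one {d : ℝ} (hd : 0 ≤ d) (n k : ℕ) (h : Tree n → ℝ) (s : ℝ)
    (hs : HasSum (fun T => gwWeight d n T * h T) s) (c : Fin k) :
    HasSum (fun x : Fin k → Tree n => (∏ i, gwWeight d n (x i)) * h (x c)) s := by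
  have := hasSum_fibre_prod d n k (fun i T => if i = c then h T else 1)
    (fun i => if i = c then s else 1) fun i => by
      by_cases hi : i = c
      · simpa [hi] using hs
      · simpa [hi] using hasSum_gwWeight hd n
  simpa [Finset.prod_ite_eq'] using this

/-- Two children, within one fibre. -/
theorem hasSum_fibre_two {d : ℝ} (hd : 0 ≤ d) (n k : ℕ) (h h' : Tree n → ℝ) (s s' : ℝ)
    (hs : HasSum (fun T => gwWeight d n T * h T) s)
    (hs' : HasSum (fun T => gwWeight d n T * h' T) s') {c c' : Fin k} (hcc : c ≠ c') :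
    HasSum (fun x : Fin k → Tree n => (∏ i, gwWeight d n (x i)) * (h (x c) * h' (x c')))
      (s * s') := by
  have := hasSum_fibre_prod d n k
    (fun i T => (if i = c then h T else 1) * (if i = c' then h' T else 1))
    (fun i => (if i = c then s else 1) * (if i = c' then s' else 1)) fun i => by
      by_cases hi : i = c
      · subst hi; simpa [hcc] using hs
      · by_cases hi' : i = c'
        · subst hi'; simpa [hi] using hs'
        · simpa [hi, hi'] using hasSum_gwWeight hd n
  simp only [Finset.prod_mul_distrib, Finset.prod_ite_eq', Finset.mem_univ, if_true] at this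
  exact this

/-- `E ∑ h = d E h`, for nonnegative `h`. -/
theorem hasSum_children_sum {d : ℝ} (hd : 0 ≤ d) (n : ℕ) (h : Tree n → ℝ) (hh : ∀ T, 0 ≤ h T)
    (s : ℝ) (hs : HasSum (fun T => gwWeight d n T * h T) s) :
    HasSum (fun T : Tree (n + 1) => gwWeight d (n + 1) T * ∑ c, h (T.2 c)) (d * s) := by
  refine hasSum_of_fibres_nonneg hd n _ (fun T => Finset.sum_nonneg fun c _ => hh _)
    (fun k => (k : ℝ) * s) _ (fun k => ?_) ?_
  · have := hasSum_sum (s := (Finset.univ : Finset (Fin k))) fun c _ =>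
      hasSum_fibre_one hd n k h s hs c
    simpa [Finset.mul_sum] using this
  · simpa [mul_assoc] using (hasSum_pois_natCast d).mul_right s

/-- `E ∑_{c ≠ c'} h h = d ^ 2 (E h) ^ 2`, for nonnegative `h`. -/
theorem hasSum_children_pairs {d : ℝ} (hd : 0 ≤ d) (n : ℕ) (h : Tree n → ℝ)
    (hh : ∀ T, 0 ≤ h T) (s : ℝ) (hs : HasSum (fun T => gwWeight d n T * h T) s) :
    HasSum (fun T : Tree (n + 1) =>
        gwWeight d (n + 1) T * ∑ p ∈ Finset.univ.offDiag, h (T.2 p.1) * h (T.2 p.2))
      (d ^ 2 * s ^ 2) := by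
  refine hasSum_of_fibres_nonneg hd n _
    (fun T => Finset.sum_nonneg fun p _ => mul_nonneg (hh _) (hh _))
    (fun k => (k : ℝ) * ((k : ℝ) - 1) * s ^ 2) _ (fun k => ?_) ?_
  · have := hasSum_sum (s := (Finset.univ : Finset (Fin k)).offDiag) fun p hp =>
      hasSum_fibre_two hd n k h h s s hs hs (Finset.mem_offDiag.1 hp).2.2
    rw [Finset.sum_const, Finset.offDiag_card, Finset.card_univ, Fintype.card_fin,
      nsmul_eq_mul, ← sq k, Nat.cast_sub (Nat.le_self_pow two_ne_zero k)] at this
    simpa [Finset.mul_sum, mul_sub, pow_two] using this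
  · simpa [mul_assoc] using (hasSum_pois_pairs d).mul_right (s ^ 2)

end Vale.Agent.P154.GW
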