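import Vale.Agent.P154.Tree
import Vale.Agent.P154.GW

/-!
P154: an affinity Lyapunov certificate implies nonreconstruction, on `d`-ary trees and on
Poisson Galton-Watson trees.
-/

namespace Vale.Agent.P154

open Filter Topology

variable {q : ℕ}

theorem aff_nonneg {α u : Fin q → ℝ} (hu : Dev u) : 0 ≤ aff α u :=
  Finset.prod_nonneg fun i _ => Real.rpow_nonneg (by linarith [hu.2 i]) _

theorem aff_le_weighted {α u : Fin q → ℝ} (h0 : ∀ i, 0 ≤ α i) (h1 : ∑ i, α i = 1)
    (hu : Dev u) : aff α u ≤ 1 + ∑ i, α i * u i := by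
  refine le_of_le_of_eq (Real.geom_mean_le_arith_mean_weighted Finset.univ α (fun i => 1 + u i)
    (fun i _ => h0 i) h1 fun i _ => by linarith [hu.2 i]) ?_
  simp only [mul_add, mul_one, Finset.sum_add_distrib, h1]

theorem Law.E_aff_nonneg (A : Law q) (α : Fin q → ℝ) : 0 ≤ A.E (aff α) :=
  le_of_eq_of_le (A.const 0).symm (A.mono _ _ fun _ hu => aff_nonneg hu)

theorem Law.E_aff_le_one (A : Law q) {α : Fin q → ℝ} (h0 : ∀ i, 0 ≤ α i) (h1 : ∑ i, α i = 1) :
    A.E (aff α) ≤ 1 := by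
  refine le_of_le_of_eq (A.mono _ _ fun _ hu => aff_le_weighted h0 h1 hu) ?_
  have h : (fun u : Fin q → ℝ => ∑ i, α i * u i) = ∑ i, α i • fun u : Fin q → ℝ => u i := by
    ext u; simp [Finset.sum_apply]
  rw [A.add_fun, A.const, h, map_sum]
  simp [A.mean_zero]

theorem Law.E_scale_aff (hq : 2 ≤ q) (lam : ℝ) (hl : -(1 / ((q : ℝ) - 1)) ≤ lam) (hl' : lam ≤ 1)
    (A : Law q) (α : Fin q → ℝ) :
    A.E (fun u => aff α fun i => lam * u i) = (A.scale hq lam hl hl').E (aff α) := rfl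

/-- The affinity at a vertex is the product of the affinities of its children. -/
theorem treeLaw_succ_aff (hq : 2 ≤ q) (lam : ℝ) (hl : -(1 / ((q : ℝ) - 1)) ≤ lam) (hl' : lam ≤ 1)
    (α : Fin q → ℝ) (h0 : ∀ i, 0 ≤ α i) (h1 : ∑ i, α i = 1) (n : ℕ) (T : Tree (n + 1)) :
    (treeLaw hq lam hl hl' (n + 1) T).E (aff α) =
      ∏ c, (treeLaw hq lam hl hl' n (T.2 c)).E (fun u => aff α fun i => lam * u i) :=
  Law.node_aff (by omega) α h0 h1 T.1 _

/-- A finite mixture of laws, completed by the trivial law. -/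
noncomputable def Law.mix {ι : Type*} (F : Finset ι) (w : ι → ℝ) (A : ι → Law q)
    (hw : ∀ i, 0 ≤ w i) (hs : ∑ i ∈ F, w i ≤ 1) : Law q where
  E := (∑ i ∈ F, w i • (A i).E) + (1 - ∑ i ∈ F, w i) • (Law.unit q).E
  mono g h e := by
    simp only [LinearMap.add_apply, LinearMap.coe_sum, Finset.sum_apply, LinearMap.smul_apply,
      smul_eq_mul]
    exact add_le_add
      (Finset.sum_le_sum fun i _ => mul_le_mul_of_nonneg_left ((A i).mono g h e) (hw i))
      (mul_le_mul_of_nonneg_left ((Law.unit q).mono g h e) (by linarith))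
  one := by simp [Law.one]
  symm σ g := by simp [Law.symm]

theorem Law.mix_E {ι : Type*} (F : Finset ι) (w : ι → ℝ) (A : ι → Law q)
    (hw : ∀ i, 0 ≤ w i) (hs : ∑ i ∈ F, w i ≤ 1) (g : (Fin q → ℝ) → ℝ) :
    (Law.mix F w A hw hs).E g = (∑ i ∈ F, w i * (A i).E g) +
      (1 - ∑ i ∈ F, w i) * (Law.unit q).E g := by
  simp [Law.mix]

/-- A continuous bounded potential that drops by `ε s ^ 2` at each step forces `s → 0`. -/
theorem tendsto_zero_of_potential {N : ℕ} {Φ : (Fin N → ℝ) → ℝ} (hΦ : Continuous Φ)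
    {D : ℕ → Fin N → ℝ} (hD0 : ∀ n j, 0 ≤ D n j) (hD1 : ∀ n j, D n j ≤ 1) {ε : ℝ} (hε : 0 < ε)
    {s : ℕ → ℝ} (hs : ∀ n, 0 ≤ s n) (h : ∀ n, Φ (D (n + 1)) ≤ Φ (D n) - ε * s n ^ 2) :
    Tendsto s atTop (𝓝 0) := by
  obtain ⟨b, hb⟩ := ((isCompact_Icc (a := (0 : Fin N → ℝ)) (b := 1)).image hΦ).bddBelow
  have hlow : ∀ n, b ≤ Φ (D n) := fun n =>
    hb ⟨D n, ⟨fun j => hD0 n j, fun j => hD1 n j⟩, rfl⟩
  have htel : ∀ n, ε * ∑ i ∈ Finset.range n, s i ^ 2 ≤ Φ (D 0) - Φ (D n) := by
    intro n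
    induction n with
    | zero => simp
    | succ n ih =>
      rw [Finset.sum_range_succ, mul_add]
      linarith [h n]
  have hsum : Summable fun i => s i ^ 2 :=
    summable_of_sum_range_le (c := (Φ (D 0) - b) / ε) (fun i => sq_nonneg _) fun n => by
      rw [le_div_iff₀' hε]
      linarith [htel n, hlow n]
  have h2 := hsum.tendsto_atTop_zero.sqrt
  rw [Real.sqrt_zero] at h2
  exact h2.congr fun n => Real.sqrt_sq (hs n)

/-- An affinity certificate gives nonreconstruction on `d`-ary trees. -/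
theorem nonReconstructs_regular_of_affCert (hq : 2 ≤ q) (lam : ℝ)
    (hl : -(1 / ((q : ℝ) - 1)) ≤ lam) (hl' : lam ≤ 1) (d : ℕ)
    (hcert : AffCert q lam (genRegular d)) : NonReconstructs (aRegular q lam d) := by
  obtain ⟨N, α, Φ, ε, hε, hΦ, h0, h1, h⟩ := hcert
  refine nonReconstructs_of_S hq lam hl hl' d ?_
  set X : ℕ → Law q := fun n => treeLaw hq lam hl hl' n (regular d n) with hX
  have hstep : ∀ n j, (X (n + 1)).defect (α j) =
      1 - genRegular d (1 - (X n).defectEdge (α j) lam) := by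
    intro n j
    simp only [Law.defect, Law.defectEdge, genRegular, sub_sub_cancel, hX]
    rw [treeLaw_succ_aff hq lam hl hl' (α j) (h0 j) (h1 j) n]
    congr 1
    exact Fin.prod_const d ((X n).E fun u => aff (α j) fun k => lam * u k)
  refine tendsto_zero_of_potential hΦ (D := fun n j => (X n).defect (α j))
    (fun n j => sub_nonneg.2 (Law.E_aff_le_one _ (h0 j) (h1 j)))
    (fun n j => sub_le_self _ (Law.E_aff_nonneg _ _)) hε (fun n => Law.S_nonneg hq _) fun n => ?_
  simp only [hstep]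
  exact h (X n)

/-- The certificate inequality passes to countable mixtures. -/
theorem affCert_mixture {ι : Type*} {N : ℕ} {α : Fin N → Fin q → ℝ} {Φ : (Fin N → ℝ) → ℝ}
    {G : ℝ → ℝ} {ε lam : ℝ} (hΦ : Continuous Φ) (hG : Continuous G)
    (h : ∀ A : Law q, Φ (fun j => 1 - G (1 - A.defectEdge (α j) lam)) ≤
      Φ (fun j => A.defect (α j)) - ε * A.S ^ 2)
    {w : ι → ℝ} (hw : ∀ i, 0 ≤ w i) (hw1 : HasSum w 1) (A : ι → Law q) {e e' : Fin N → ℝ} {S : ℝ}
    (he : ∀ j, HasSum (fun i => w i * (A i).E (aff (α j))) (e j))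
    (he' : ∀ j, HasSum (fun i => w i * (A i).E (fun u => aff (α j) fun k => lam * u k)) (e' j))
    (hS : HasSum (fun i => w i * (A i).S) S) :
    Φ (fun j => 1 - G (e' j)) ≤ Φ (fun j => 1 - e j) - ε * S ^ 2 := by
  have hs : ∀ F : Finset ι, ∑ i ∈ F, w i ≤ 1 := fun F =>
    sum_le_hasSum F (fun i _ => hw i) hw1
  have key : ∀ (g : (Fin q → ℝ) → ℝ) (L : ℝ), HasSum (fun i => w i * (A i).E g) L →
      Tendsto (fun F => (Law.mix F w A hw (hs F)).E g) atTop (𝓝 L) := by
    intro g L hL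
    have h1 : Tendsto (fun F : Finset ι => ∑ i ∈ F, w i * (A i).E g) atTop (𝓝 L) := hL
    have h2 : Tendsto (fun F : Finset ι => ∑ i ∈ F, w i) atTop (𝓝 1) := hw1
    have h3 := h1.add ((h2.const_sub 1).mul_const ((Law.unit q).E g))
    rw [sub_self, zero_mul, add_zero] at h3
    exact h3.congr fun F => (Law.mix_E F w A hw (hs F) g).symm
  have hleft : Tendsto (fun F => Φ (fun j => 1 - G (1 -
      (Law.mix F w A hw (hs F)).defectEdge (α j) lam))) atTop (𝓝 (Φ fun j => 1 - G (e' j))) := by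
    refine (hΦ.tendsto _).comp (tendsto_pi_nhds.2 fun j => ?_)
    simp only [Law.defectEdge, sub_sub_cancel]
    exact ((hG.tendsto _).comp (key _ _ (he' j))).const_sub 1
  have hright : Tendsto (fun F => Φ (fun j => (Law.mix F w A hw (hs F)).defect (α j)) -
      ε * (Law.mix F w A hw (hs F)).S ^ 2) atTop (𝓝 (Φ (fun j => 1 - e j) - ε * S ^ 2)) :=
    ((hΦ.tendsto _).comp (tendsto_pi_nhds.2 fun j => (key _ _ (he j)).const_sub 1)).sub
      (((key ss S hS).pow 2).const_mul ε)
  exact le_of_tendsto_of_tendsto' hleft hright fun F => h _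

/-- An affinity certificate gives nonreconstruction on Poisson Galton-Watson trees. -/
theorem nonReconstructs_poisson_of_affCert (hq : 2 ≤ q) (lam : ℝ)
    (hl : -(1 / ((q : ℝ) - 1)) ≤ lam) (hl' : lam ≤ 1) (d : ℝ) (hd : 0 ≤ d)
    (hcert : AffCert q lam (genPoisson d)) : NonReconstructs (aPoisson q lam d) := by
  obtain ⟨N, α, Φ, ε, hε, hΦ, h0, h1, h⟩ := hcert
  set A : (n : ℕ) → Tree n → Law q := fun n T => treeLaw hq lam hl hl' n T with hA
  set e : ℕ → Fin N → ℝ := fun n j => ∑' T, gwWeight d n T * (A n T).E (aff (α j)) with he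
  set e' : ℕ → Fin N → ℝ := fun n j =>
    ∑' T, gwWeight d n T * (A n T).E (fun u => aff (α j) fun k => lam * u k) with he'
  set S : ℕ → ℝ := fun n => ∑' T, gwWeight d n T * (A n T).S with hS
  have hE : ∀ n j, HasSum (fun T => gwWeight d n T * (A n T).E (aff (α j))) (e n j) := fun n j =>
    (GW.summable_of_bounded hd n _ 1 fun T => by
      rw [abs_of_nonneg (Law.E_aff_nonneg _ _)]
      exact Law.E_aff_le_one _ (h0 j) (h1 j)).hasSum
  have hE' : ∀ n j, HasSum (fun T => gwWeight d n T *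
      (A n T).E (fun u => aff (α j) fun k => lam * u k)) (e' n j) := fun n j =>
    (GW.summable_of_bounded hd n _ 1 fun T => by
      rw [Law.E_scale_aff hq lam hl hl', abs_of_nonneg (Law.E_aff_nonneg _ _)]
      exact Law.E_aff_le_one _ (h0 j) (h1 j)).hasSum
  have hSS : ∀ n, HasSum (fun T => gwWeight d n T * (A n T).S) (S n) := fun n =>
    (GW.summable_of_bounded hd n _ 1 fun T => by
      rw [abs_of_nonneg (Law.S_nonneg hq _)]
      exact Law.S_le_one hq _).hasSum
  have hstep : ∀ n j, e (n + 1) j = genPoisson d (e' n j) := by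
    intro n j
    refine (hE (n + 1) j).unique ?_
    rw [genPoisson, ← neg_mul]
    refine (GW.hasSum_prod_exp hd n _ _ (hE' n j)).congr_fun fun T => ?_
    rw [treeLaw_succ_aff hq lam hl hl' (α j) (h0 j) (h1 j) n]
  have hS0 : ∀ n, 0 ≤ S n := fun n =>
    tsum_nonneg fun T => mul_nonneg (GW.gwWeight_nonneg hd n T) (Law.S_nonneg hq _)
  have hlim : Tendsto S atTop (𝓝 0) := by
    refine tendsto_zero_of_potential hΦ (D := fun n j => 1 - e n j) (fun n j => ?_) (fun n j => ?_)
      hε hS0 fun n => ?_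
    · rw [sub_nonneg]
      refine hasSum_le (fun T => ?_) (hE n j) (GW.hasSum_gwWeight hd n)
      exact mul_le_of_le_one_right (GW.gwWeight_nonneg hd n T)
        (Law.E_aff_le_one _ (h0 j) (h1 j))
    · exact sub_le_self _
        (tsum_nonneg fun T => mul_nonneg (GW.gwWeight_nonneg hd n T) (Law.E_aff_nonneg _ _))
    · simp only [hstep]
      exact affCert_mixture hΦ (by unfold genPoisson; fun_prop) h (GW.gwWeight_nonneg hd n)
        (GW.hasSum_gwWeight hd n) (A n) (hE n) (hE' n) (hSS n)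
  have hadv0 : ∀ n, 0 ≤ aPoisson q lam d n := fun n =>
    tsum_nonneg fun T =>
      mul_nonneg (GW.gwWeight_nonneg hd n T) (advantage_nonneg hq lam hl hl' n T)
  have hb : ∀ δ : ℝ, 0 < δ → ∀ n, aPoisson q lam d n ≤ q * (S n / δ + δ) := by
    intro δ hδ n
    have hl2 : Summable fun T => gwWeight d n T * advantage q lam n T :=
      GW.summable_of_bounded hd n _ 1 fun T => by
        rw [abs_of_nonneg (advantage_nonneg hq lam hl hl' n T)]
        exact advantage_le_one hq lam hl hl' n T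
    have hr := (((hSS n).div_const δ).add ((GW.hasSum_gwWeight hd n).mul_right δ)).mul_left (q : ℝ)
    rw [one_mul] at hr
    refine hasSum_le (fun T => ?_) hl2.hasSum hr
    refine (mul_le_mul_of_nonneg_left (advantage_le_S hq lam hl hl' n T δ hδ)
      (GW.gwWeight_nonneg hd n T)).trans (le_of_eq ?_)
    ring
  have h2 : (2 : ℝ) ≤ q := by exact_mod_cast hq
  rw [NonReconstructs, Metric.tendsto_atTop]
  intro η hη
  set δ := η / (4 * q) with hδ
  have hδ0 : 0 < δ := by positivity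
  obtain ⟨M, hM⟩ := Metric.tendsto_atTop.1 hlim (δ * δ) (by positivity)
  refine ⟨M, fun n hn => ?_⟩
  have hSn := hM n hn
  rw [Real.dist_eq, sub_zero, abs_of_nonneg (hS0 n)] at hSn
  rw [Real.dist_eq, sub_zero, abs_of_nonneg (hadv0 n)]
  refine (hb δ hδ0 n).trans_lt ?_
  calc (q : ℝ) * (S n / δ + δ) < q * (δ + δ) := by
        refine mul_lt_mul_of_pos_left ?_ (by linarith)
        gcongr
        rw [div_lt_iff₀ hδ0]
        exact hSn
    _ < η := by rw [hδ]; field_simp; linarith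

end Vale.Agent.P154
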