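import Vale.Agent.P154.Law

/-!
Interfaces between the parts of the argument for P154.
-/

namespace Vale.Agent.P154

theorem lam_lower {q : ℕ} (hq : 2 ≤ q) {lam : ℝ} (h : 0 ≤ lam) :
    -(1 / ((q : ℝ) - 1)) ≤ lam := by
  have h2 : (2 : ℝ) ≤ q := by exact_mod_cast hq
  have : (0 : ℝ) ≤ 1 / ((q : ℝ) - 1) := div_nonneg zero_le_one (by linarith)
  linarith

/-- The law of the root deviation given a tree. -/
noncomputable def treeLaw {q : ℕ} (hq : 2 ≤ q) (lam : ℝ) (hl : -(1 / ((q : ℝ) - 1)) ≤ lam)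
    (hl' : lam ≤ 1) : (n : ℕ) → Tree n → Law q
  | 0, _ => Law.leaf (by omega)
  | n + 1, T => Law.node (by omega) T.1 fun c =>
      (treeLaw hq lam hl hl' n (T.2 c)).scale hq lam hl hl'

/-- What the ferromagnetic part needs: an invariant class of laws on which the second
moment is strictly subadditive. -/
def FerroCert (q : ℕ) (hq : 2 ≤ q) : Prop :=
  ∃ (K : Law q → Prop) (ε : ℝ) (m : ℕ), 0 < ε ∧ ε ≤ 1 ∧ 1 ≤ m ∧
    K (Law.leaf (by omega)) ∧ K (Law.unit q) ∧
    (∀ (A : Law q) (lam : ℝ) (h0 : 0 ≤ lam) (h1 : lam ≤ 1), K A →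
      K (A.scale hq lam (lam_lower hq h0) h1)) ∧
    (∀ A B : Law q, K A → K B → K (A.merge (by omega) B) ∧
      (A.merge (by omega) B).S ≤ A.S + B.S - ε * A.S ^ m * B.S)

/-- `1 - E aff`: the defect of an affinity. -/
noncomputable def Law.defect {q : ℕ} (A : Law q) (α : Fin q → ℝ) : ℝ := 1 - A.E (aff α)

/-- The same defect after one edge with eigenvalue `lam`. -/
noncomputable def Law.defectEdge {q : ℕ} (A : Law q) (α : Fin q → ℝ) (lam : ℝ) : ℝ :=
  1 - A.E (fun u => aff α fun i => lam * u i)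

/-- An affinity Lyapunov certificate: a continuous function of finitely many defects drops by
a multiple of `S ^ 2` under one recursion step, whose offspring generating function is `G`. -/
def AffCert (q : ℕ) (lam : ℝ) (G : ℝ → ℝ) : Prop :=
  ∃ (N : ℕ) (α : Fin N → Fin q → ℝ) (Φ : (Fin N → ℝ) → ℝ) (ε : ℝ), 0 < ε ∧ Continuous Φ ∧
    (∀ j i, 0 ≤ α j i) ∧ (∀ j, ∑ i, α j i = 1) ∧
    ∀ A : Law q, Φ (fun j => 1 - G (1 - A.defectEdge (α j) lam)) ≤
      Φ (fun j => A.defect (α j)) - ε * A.S ^ 2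

/-- Generating function of `d` children. -/
def genRegular (d : ℕ) (s : ℝ) : ℝ := s ^ d

/-- Generating function of a Poisson number of children. -/
noncomputable def genPoisson (d : ℝ) (s : ℝ) : ℝ := Real.exp (-(d * (1 - s)))

end Vale.Agent.P154
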