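import Vale.Agent.P154.Api

/-!
Pointwise certificates for the affinity method with a single negative coefficient.
-/

namespace Vale.Agent.P154

/-- Quadratic-over-affine bounds for the second order remainder of a generating function:
`H a = G (1 - a / d) - 1 + a`. -/
def GenBounds (G : ℝ → ℝ) (d κ β γ A : ℝ) : Prop :=
  0 < d ∧ 0 ≤ κ ∧ 0 ≤ β ∧ 0 ≤ γ ∧ Continuous G ∧
    ∀ a : ℝ, 0 ≤ a → a ≤ A → a ≤ d →
      G (1 - a / d) - 1 + a ≤ κ * (a ^ 2 / 2) / (1 + β * a) ∧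
      κ * (a ^ 2 / 2) / (1 + β * a + γ * a ^ 2) ≤ G (1 - a / d) - 1 + a

/-- Pointwise certificate: `b 0` is minus the coefficient of atom `α 0`, `b k` for `k ≠ 0` are
the coefficients of the other atoms, `r` are the weights of the Cauchy-Schwarz step. -/
def PointCert {q N : ℕ} (lam d κ β γ A ε : ℝ) (α : Fin (N + 1) → Fin q → ℝ)
    (b r : Fin (N + 1) → ℝ) : Prop :=
  let a : Fin (N + 1) → (Fin q → ℝ) → ℝ :=
    fun j u => d * (1 - aff (α j) fun i => lam * u i)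
  let B : (Fin q → ℝ) → ℝ :=
    fun u => b 0 * a 0 u - ∑ k : Fin N, b k.succ * r k.succ * a k.succ u
  let avg : ((Fin q → ℝ) → ℝ) → (Fin q → ℝ) → ℝ :=
    fun g u => (∑ σ : Equiv.Perm (Fin q), g (u ∘ σ)) / Fintype.card (Equiv.Perm (Fin q))
  0 < ε ∧ (∀ j, 0 ≤ b j) ∧ (∀ j i, 0 ≤ α j i) ∧ (∀ j, ∑ i, α j i = 1) ∧
    ∀ u, Dev u →
      (∀ j, avg (a j) u ≤ A) ∧
      0 < b 0 * (1 + β * avg (a 0) u) -
          ∑ k : Fin N, b k.succ * r k.succ ^ 2 *
            (1 + β * avg (a k.succ) u + γ * avg (a k.succ) u ^ 2) ∧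
      κ * avg B u ^ 2 / (2 * (b 0 * (1 + β * avg (a 0) u) -
          ∑ k : Fin N, b k.succ * r k.succ ^ 2 *
            (1 + β * avg (a k.succ) u + γ * avg (a k.succ) u ^ 2))) + ε * ss u ^ 2 ≤
        (-(b 0) * (1 - avg (aff (α 0)) u) + ∑ k : Fin N, b k.succ * (1 - avg (aff (α k.succ)) u)) -
        (-(b 0) * avg (a 0) u + ∑ k : Fin N, b k.succ * avg (a k.succ) u)

end Vale.Agent.P154
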