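import Vale.Agent.P154.FerroNode
import Vale.Agent.P154.TreeAux.Ens

/-!
P154: the law of the root deviation computes `advantage`; bounds; monotonicity; the `d`-ary
assembly of a ferromagnetic certificate.
-/

namespace Vale.Agent.P154

open Filter Topology Finset

variable {q : ℕ}

lemma lam_channel (hq : 2 ≤ q) {lam : ℝ} (hl : -(1 / ((q : ℝ) - 1)) ≤ lam) :
    -1 ≤ lam * ((q : ℝ) - 1) := by
  have h2 : (2 : ℝ) ≤ q := by exact_mod_cast hq
  have := mul_le_mul_of_nonneg_right hl (show (0 : ℝ) ≤ (q : ℝ) - 1 by linarith)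
  rwa [neg_mul, div_mul_cancel₀ _ (show (q : ℝ) - 1 ≠ 0 by linarith)] at this

lemma Tr.Ens.E_node (hq : 0 < q) : ∀ (k : ℕ) (f : Fin k → Tr.Ens q) (A : Fin k → Law q),
    (∀ c g, (f c).E g = (A c).E g) → ∀ g, (Tr.Ens.prodE k f).E g = (Law.node hq k A).E g
  | 0, _, _, _, g => Tr.Ens.E_one hq g
  | k + 1, f, A, h, g => by
    show ((f 0).mul (Tr.Ens.prodE k fun c => f c.succ)).E g =
      ((A 0).merge hq (Law.node hq k fun c => A c.succ)).E g
    rw [Tr.Ens.E_mul _ _ hq, Law.merge_E]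
    simp only [Tr.Ens.E_node hq k (fun c => f c.succ) (fun c => A c.succ) (fun c => h c.succ)]
    exact h 0 _

lemma Tr.Ens.E_leaf (hq : 0 < q) (g : (Fin q → ℝ) → ℝ) :
    (Tr.Ens.leaf q).E g = (Law.leaf hq).E g := by
  rw [Law.leaf_E, Tr.Ens.E_eq, sum_div]
  show ∑ j : Fin q, _ = _
  refine Finset.sum_congr rfl fun j _ => ?_
  have hm : Tr.mean ((Tr.Ens.leaf q).L j) = 1 / (q : ℝ) := by
    show (∑ i : Fin q, if j = i then (1 : ℝ) else 0) / (q : ℝ) = _
    simp
  have hd : Tr.dev ((Tr.Ens.leaf q).L j) = vertex j := funext fun i => by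
    rw [Tr.dev, hm]
    show (if j = i then (1 : ℝ) else 0) / (1 / q) - 1 = _
    simp only [vertex, eq_comm (a := j)]
    split_ifs <;> simp
  rw [hm, hd]
  ring

/-- The two descriptions of the law of a tree agree. -/
theorem treeE_eq_treeLaw (hq : 2 ≤ q) (lam : ℝ) (hl : -(1 / ((q : ℝ) - 1)) ≤ lam) (hl' : lam ≤ 1) :
    ∀ (n : ℕ) (T : Tree n) (g : (Fin q → ℝ) → ℝ),
      (Tr.treeE lam (lam_channel hq hl) hl' n T).E g = (treeLaw hq lam hl hl' n T).E g := by
  intro n
  induction n with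
  | zero => exact fun T g => Tr.Ens.E_leaf (by omega) g
  | succ n ih =>
    intro T g
    refine Tr.Ens.E_node (by omega) T.1 _ _ (fun c g => ?_) g
    rw [Tr.Ens.E_chanE _ (by omega), ih]
    rfl

/-- Expectation under `treeLaw` is the average over boundary configurations. -/
theorem treeLaw_E_eq (hq : 2 ≤ q) (lam : ℝ) (hl : -(1 / ((q : ℝ) - 1)) ≤ lam) (hl' : lam ≤ 1)
    (n : ℕ) (T : Tree n) (g : (Fin q → ℝ) → ℝ) :
    (treeLaw hq lam hl hl' n T).E g = ∑ η : Leaf n T → Fin q,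
      evid lam n T η * g (fun i => q * posterior lam n T η i - 1) := by
  rw [← treeE_eq_treeLaw hq lam hl hl' n T g]
  exact Tr.ET_eq lam (lam_channel hq hl) hl' (by omega) n T g

/-- The advantage as an expectation. -/
theorem advantage_eq (hq : 2 ≤ q) (lam : ℝ) (hl : -(1 / ((q : ℝ) - 1)) ≤ lam) (hl' : lam ≤ 1)
    (n : ℕ) (T : Tree n) :
    advantage q lam n T = (treeLaw hq lam hl hl' n T).E (fun u => (∑ i, |u i|) / (2 * q)) := by
  rw [← treeE_eq_treeLaw hq lam hl hl' n T]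
  exact Tr.advantage_eq lam (lam_channel hq hl) hl' (by omega) n T

theorem advantage_nonneg (hq : 2 ≤ q) (lam : ℝ) (hl : -(1 / ((q : ℝ) - 1)) ≤ lam) (hl' : lam ≤ 1)
    (n : ℕ) (T : Tree n) : 0 ≤ advantage q lam n T :=
  Tr.advantage_nonneg lam (lam_channel hq hl) hl' (by omega) n T

theorem advantage_le_one (hq : 2 ≤ q) (lam : ℝ) (hl : -(1 / ((q : ℝ) - 1)) ≤ lam) (hl' : lam ≤ 1)
    (n : ℕ) (T : Tree n) : advantage q lam n T ≤ 1 := by
  rw [advantage_eq hq lam hl hl']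
  refine le_of_le_of_eq (Law.mono _ _ (fun _ => (1 : ℝ)) fun u hu => ?_) (Law.const _ 1)
  have hq' : (0 : ℝ) < q := by positivity
  rw [div_le_one (by positivity)]
  calc ∑ i, |u i| ≤ ∑ i, (u i + 2) :=
        Finset.sum_le_sum fun i _ => abs_le.2 ⟨by linarith [hu.2 i], by linarith⟩
    _ = 2 * q := by rw [Finset.sum_add_distrib, hu.1]; simp; ring

/-- Affinities multiply over the children. -/
theorem treeLaw_aff (hq : 2 ≤ q) (lam : ℝ) (hl : -(1 / ((q : ℝ) - 1)) ≤ lam) (hl' : lam ≤ 1)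
    (α : Fin q → ℝ) (h0 : ∀ i, 0 ≤ α i) (h1 : ∑ i, α i = 1) (n : ℕ) (T : Tree (n + 1)) :
    (treeLaw hq lam hl hl' (n + 1) T).E (aff α) =
      ∏ c, (treeLaw hq lam hl hl' n (T.2 c)).E (fun u => aff α fun i => lam * u i) := by
  refine (Law.node_aff (by omega) α h0 h1 T.1
    fun c => (treeLaw hq lam hl hl' n (T.2 c)).scale hq lam hl hl').trans ?_
  simp only [Law.scale_E]

/-- The advantage is at most `q (S / δ + δ)`. -/
theorem advantage_le_S (hq : 2 ≤ q) (lam : ℝ) (hl : -(1 / ((q : ℝ) - 1)) ≤ lam) (hl' : lam ≤ 1)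
    (n : ℕ) (T : Tree n) (δ : ℝ) (hδ : 0 < δ) :
    advantage q lam n T ≤ q * ((treeLaw hq lam hl hl' n T).S / δ + δ) := by
  have h2 : (2 : ℝ) ≤ q := by exact_mod_cast hq
  rw [advantage_eq hq lam hl hl', Law.S]
  set A := treeLaw hq lam hl hl' n T
  calc A.E (fun u => (∑ i, |u i|) / (2 * q))
      ≤ A.E (fun u => (q : ℝ) / δ * ss u + q * δ) := by
        refine A.mono _ _ fun u _ => ?_
        have hs : ∑ i, |u i| ≤ ∑ i, (u i ^ 2 / δ + δ) := Finset.sum_le_sum fun i _ => by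
          rw [div_add' _ _ _ hδ.ne', le_div_iff₀ hδ]
          nlinarith [sq_nonneg (|u i| - δ), sq_abs (u i), abs_nonneg (u i)]
        rw [Finset.sum_add_distrib, ← Finset.sum_div] at hs
        simp only [Finset.sum_const, Finset.card_univ, Fintype.card_fin, nsmul_eq_mul] at hs
        have he : ∑ i, u i ^ 2 = q * (q - 1) * ss u := by
          have hq0 : (q : ℝ) * (q - 1) ≠ 0 := (mul_pos (by linarith) (by linarith)).ne'
          rw [ss, mul_div_cancel₀ _ hq0]
        rw [he] at hs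
        rw [div_le_iff₀ (by positivity)]
        have hss := ss_nonneg hq u
        have h1 : (q : ℝ) * (q - 1) * ss u / δ ≤ q / δ * ss u * (2 * q) := by
          rw [div_mul_eq_mul_div, div_mul_eq_mul_div]
          gcongr ?_ / δ
          nlinarith [mul_nonneg (mul_nonneg (by linarith : (0 : ℝ) ≤ (q : ℝ))
            (by linarith : (0 : ℝ) ≤ (q : ℝ) + 1)) hss]
        nlinarith [mul_pos hδ (show (0 : ℝ) < q by linarith)]
    _ = q * (A.E ss / δ + δ) := by
        rw [A.add_fun, A.smul_fun, A.const]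
        ring

/-- Any form of `S → 0` gives nonreconstruction on the `d`-ary tree. -/
theorem nonReconstructs_of_S (hq : 2 ≤ q) (lam : ℝ) (hl : -(1 / ((q : ℝ) - 1)) ≤ lam)
    (hl' : lam ≤ 1) (d : ℕ)
    (h : Tendsto (fun n => (treeLaw hq lam hl hl' n (regular d n)).S) atTop (𝓝 0)) :
    NonReconstructs (aRegular q lam d) := by
  have h2 : (2 : ℝ) ≤ q := by exact_mod_cast hq
  rw [NonReconstructs, Metric.tendsto_atTop]
  intro ε hε
  set δ := ε / (4 * q) with hδ
  have hδ0 : 0 < δ := by positivity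
  obtain ⟨N, hN⟩ := Metric.tendsto_atTop.1 h (δ * δ) (by positivity)
  refine ⟨N, fun n hn => ?_⟩
  have hb := advantage_le_S hq lam hl hl' n (regular d n) δ hδ0
  have h0 := advantage_nonneg hq lam hl hl' n (regular d n)
  have hS := hN n hn
  rw [Real.dist_eq, sub_zero, abs_of_nonneg (Law.S_nonneg hq _)] at hS
  rw [Real.dist_eq, sub_zero]
  show |advantage q lam n (regular d n)| < ε
  rw [abs_of_nonneg h0]
  refine hb.trans_lt ?_
  calc (q : ℝ) * ((treeLaw hq lam hl hl' n (regular d n)).S / δ + δ)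
      < q * (δ + δ) := by
        refine mul_lt_mul_of_pos_left ?_ (by linarith)
        gcongr
        rw [div_lt_iff₀ hδ0]
        exact hS
    _ < ε := by rw [hδ]; field_simp; linarith

/-- Node step: `S` is subadditive, strictly from two children on. -/
theorem node_S_le (hq : 2 ≤ q) {K : Law q → Prop} {ε : ℝ} {m : ℕ} (hε : 0 < ε) (hε1 : ε ≤ 1)
    (hu : K (Law.unit q))
    (hmerge : ∀ A B : Law q, K A → K B → K (A.merge (by omega) B) ∧
      (A.merge (by omega) B).S ≤ A.S + B.S - ε * A.S ^ m * B.S) :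
    ∀ (k : ℕ) (f : Fin k → Law q), (∀ c, K (f c)) → K (Law.node (by omega) k f) ∧
      (Law.node (by omega) k f).S ≤ ∑ c, (f c).S ∧
      ∀ hk : 0 < k, (Law.node (by omega) k f).S ≤
        ∑ c, (f c).S - ε * (f ⟨0, hk⟩).S ^ m * (∑ c, (f c).S - (f ⟨0, hk⟩).S) := by
  intro k
  induction k with
  | zero =>
    intro f _
    refine ⟨hu, ?_, fun hk => absurd hk (lt_irrefl 0)⟩
    show ss (0 : Fin q → ℝ) ≤ _
    simp [ss]
  | succ k ih =>
    intro f hf
    obtain ⟨hK, hS, -⟩ := ih (fun c => f c.succ) fun c => hf c.succ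
    obtain ⟨hK', hS'⟩ := hmerge (f 0) _ (hf 0) hK
    set B := Law.node (q := q) (by omega) k fun c => f c.succ
    have hsum : ∑ c, (f c).S = (f 0).S + ∑ c : Fin k, (f c.succ).S := Fin.sum_univ_succ _
    have hc : ε * (f 0).S ^ m ≤ 1 :=
      mul_le_one₀ hε1 (pow_nonneg (Law.S_nonneg hq _) _)
        (pow_le_one₀ (Law.S_nonneg hq _) (Law.S_le_one hq _))
    have key : ((f 0).merge (by omega) B).S ≤ ∑ c, (f c).S -
        ε * (f 0).S ^ m * (∑ c, (f c).S - (f 0).S) := by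
      rw [hsum]
      nlinarith
    refine ⟨hK', ?_, fun _ => key⟩
    refine key.trans ?_
    have : 0 ≤ ∑ c : Fin k, (f c.succ).S := Finset.sum_nonneg fun c _ => Law.S_nonneg hq _
    rw [hsum]
    nlinarith [mul_nonneg hε.le (pow_nonneg (Law.S_nonneg hq (f 0)) m)]

/-- A sequence decreasing by a power of itself tends to zero. -/
theorem tendsto_zero_of_step {x : ℕ → ℝ} (h0 : ∀ n, 0 ≤ x n) {c : ℝ} (hc : 0 < c) (m : ℕ)
    (h : ∀ n, x (n + 1) ≤ x n - c * x n ^ (m + 1)) : Tendsto x atTop (𝓝 0) := by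
  have hanti : Antitone x := antitone_nat_of_succ_le fun n => by
    have : 0 ≤ c * x n ^ (m + 1) := mul_nonneg hc.le (pow_nonneg (h0 n) _)
    linarith [h n]
  obtain ⟨l, hl⟩ : ∃ l, Tendsto x atTop (𝓝 l) :=
    ⟨_, tendsto_atTop_ciInf hanti ⟨0, by rintro _ ⟨n, rfl⟩; exact h0 n⟩⟩
  have hl0 : 0 ≤ l := ge_of_tendsto' hl h0
  have h1 : l ≤ l - c * l ^ (m + 1) :=
    le_of_tendsto_of_tendsto' (hl.comp (tendsto_add_atTop_nat 1))
      (hl.sub ((hl.pow (m + 1)).const_mul c)) h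
  have h2 : l ^ (m + 1) = 0 := le_antisymm (by nlinarith) (pow_nonneg hl0 _)
  obtain ⟨rfl, -⟩ := pow_eq_zero_iff'.1 h2
  exact hl

/-- A ferromagnetic certificate gives nonreconstruction on `d`-ary trees. -/
theorem nonReconstructs_regular_of_cert (hq : 2 ≤ q) (hcert : FerroCert q hq) (lam : ℝ)
    (h0 : 0 ≤ lam) (h1 : lam ≤ 1) (d : ℕ) (hd : 2 ≤ d) (hKS : (d : ℝ) * lam ^ 2 ≤ 1) :
    NonReconstructs (aRegular q lam d) := by
  obtain ⟨K, ε, m, hε, hε1, hm, hKl, hKu, hKs, hKm⟩ := hcert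
  have hl := lam_lower hq h0
  refine nonReconstructs_of_S hq lam hl h1 d ?_
  set X : ℕ → Law q := fun n => treeLaw hq lam hl h1 n (regular d n) with hX
  have hK : ∀ n, K (X n) := fun n => by
    induction n with
    | zero => exact hKl
    | succ n ih =>
      exact (node_S_le hq hε hε1 hKu hKm d _ fun _ => hKs _ lam h0 h1 ih).1
  have hstep : ∀ n, (X (n + 1)).S ≤ lam ^ 2 * (d : ℝ) * (X n).S
      - ε * ((lam ^ 2) ^ m * lam ^ 2) * ((d : ℝ) - 1) * (X n).S ^ (m + 1) := fun n => by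
    have := (node_S_le hq hε hε1 hKu hKm d
      (fun _ => (X n).scale hq lam hl h1) fun _ => hKs _ lam h0 h1 (hK n)).2.2 (by omega)
    simp only [Finset.sum_const, Finset.card_univ, Fintype.card_fin, nsmul_eq_mul,
      Law.S_scale] at this
    refine le_trans ?_ (le_trans this (le_of_eq (by rw [mul_pow]; ring)))
    exact le_of_eq rfl
  rcases eq_or_lt_of_le h0 with hz | hpos
  · refine (tendsto_add_atTop_iff_nat 1).1 (squeeze_zero (fun n => Law.S_nonneg hq _)
      (fun n => hstep n) ?_)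
    subst hz
    simp
  · have hd' : (2 : ℝ) ≤ d := by exact_mod_cast hd
    refine tendsto_zero_of_step (fun n => Law.S_nonneg hq _)
      (c := ε * ((lam ^ 2) ^ m * lam ^ 2) * ((d : ℝ) - 1)) ?_ m fun n => ?_
    · have : (0 : ℝ) < (d : ℝ) - 1 := by linarith
      positivity
    · refine (hstep n).trans (sub_le_sub_right ?_ _)
      exact mul_le_of_le_one_left (Law.S_nonneg hq _) (by linarith)

/-- More children, more information. -/
theorem aRegular_mono (hq : 2 ≤ q) (lam : ℝ) (hl : -(1 / ((q : ℝ) - 1)) ≤ lam) (hl' : lam ≤ 1)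
    {d d' : ℕ} (hd : d ≤ d') (n : ℕ) : aRegular q lam d n ≤ aRegular q lam d' n := by
  refine Tr.advantage_le_of_Le lam (lam_channel hq hl) hl' (by omega) (lam_channel hq hl) hl' ?_
  induction n with
  | zero => exact Tr.Ens.Le.rfl' _
  | succ n ih =>
    refine Tr.Ens.Le.trans (e' := Tr.Ens.prodE d fun _ =>
      (Tr.treeE lam (lam_channel hq hl) hl' n (regular d' n)).chanE lam (lam_channel hq hl) hl') ?_
      (Tr.Ens.prodE_mono_card hd _)
    exact Tr.Ens.Le.prodE d _ _ fun _ => ih.chanE lam (lam_channel hq hl) hl'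

end Vale.Agent.P154
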