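import Vale.Agent.P154.Api2
import Vale.Agent.P154.Tree
import Mathlib.Analysis.SpecialFunctions.Pow.Continuity

/-!
P154: a pointwise certificate gives an affinity certificate.
-/

namespace Vale.Agent.P154

open Finset

variable {q N : ℕ}

namespace PointAssembly

/-- Average of a test function over the permutations. -/
noncomputable def pav (g : (Fin q → ℝ) → ℝ) (u : Fin q → ℝ) : ℝ :=
  (∑ σ : Equiv.Perm (Fin q), g (u ∘ σ)) / Fintype.card (Equiv.Perm (Fin q))

lemma E_pav (A : Law q) (g : (Fin q → ℝ) → ℝ) : A.E (pav g) = A.E g := A.avg g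

lemma continuous_pav {g : (Fin q → ℝ) → ℝ} (hg : Continuous g) : Continuous (pav g) := by
  unfold pav
  refine Continuous.div_const (continuous_finsetSum _ fun σ _ => hg.comp ?_) _
  exact continuous_pi fun i => continuous_apply (σ i)

lemma continuous_aff {α : Fin q → ℝ} (h0 : ∀ i, 0 ≤ α i) : Continuous (aff α) :=
  continuous_finsetProd _ fun i _ =>
    (continuous_const.add (continuous_apply i)).rpow_const fun _ => Or.inr (h0 i)

lemma isCompact_dev : IsCompact {u : Fin q → ℝ | Dev u} := by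
  refine IsCompact.of_isClosed_subset
    (isCompact_univ_pi fun _ : Fin q => isCompact_Icc (a := (-1 : ℝ)) (b := (q : ℝ) - 1)) ?_ ?_
  · have h : {u : Fin q → ℝ | Dev u} = {u | ∑ i, u i = 0} ∩ ⋂ i, {u | -1 ≤ u i} := by
      ext u; simp [Dev]
    rw [h]
    exact (isClosed_eq (by fun_prop) continuous_const).inter
      (isClosed_iInter fun i => isClosed_le continuous_const (continuous_apply i))
  · exact fun u hu i _ => ⟨hu.2 i, hu.le_sub i⟩

lemma E_pos (A : Law q) {g : (Fin q → ℝ) → ℝ} (hc : Continuous g) (hg : ∀ u, Dev u → 0 < g u) :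
    0 < A.E g := by
  obtain ⟨u₀, hu₀, hmin⟩ := isCompact_dev.exists_isMinOn
    ⟨(0 : Fin q → ℝ), dev_zero⟩ hc.continuousOn
  refine (hg u₀ hu₀).trans_le (le_of_eq_of_le (A.const (g u₀)).symm ?_)
  exact A.mono _ _ fun u hu => hmin hu

lemma E_sq (A : Law q) (g : (Fin q → ℝ) → ℝ) : A.E g ^ 2 ≤ A.E (fun u => g u ^ 2) := by
  set m := A.E g
  have h : A.E (fun u => 2 * m * g u - m ^ 2) ≤ A.E (fun u => g u ^ 2) :=
    A.mono _ _ fun u _ => by nlinarith [sq_nonneg (g u - m)]
  rw [A.sub_fun, A.smul_fun, A.const] at h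
  linarith

lemma E_fsum (A : Law q) {ι : Type*} (s : Finset ι) (g : ι → (Fin q → ℝ) → ℝ) :
    A.E (fun u => ∑ k ∈ s, g k u) = ∑ k ∈ s, A.E (g k) := by
  rw [← map_sum]
  congr 1
  funext u
  rw [Finset.sum_apply]

/-- Reversed Titu inequality. -/
lemma titu_sub {P Q X Y F : ℝ} (hY : 0 ≤ Y) (hXF : X ^ 2 ≤ F * Y) (hF : 0 ≤ F) (hQY : 0 < Q - Y) :
    P ^ 2 / Q - F ≤ (P - X) ^ 2 / (Q - Y) := by
  have hQ : 0 < Q := by linarith
  rcases hY.eq_or_lt with hY0 | hY0
  · subst hY0
    have hX : X = 0 := by nlinarith [sq_nonneg X]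
    rw [hX, sub_zero, sub_zero]
    linarith
  · have h1 : X ^ 2 / Y ≤ F := (div_le_iff₀ hY0).2 hXF
    refine le_trans (sub_le_sub_left h1 _) ?_
    rw [div_sub_div _ _ hQ.ne' hY0.ne', div_le_div_iff₀ (by positivity) hQY]
    nlinarith [sq_nonneg (P * Y - Q * X)]

/-- The bound on the second order remainder. -/
lemma remainder_le {G : ℝ → ℝ} {d κ β γ A : ℝ} (hG : GenBounds G d κ β γ A)
    (b r a : Fin (N + 1) → ℝ) (hb : ∀ j, 0 ≤ b j) (ha : ∀ j, 0 ≤ a j) (haA : ∀ j, a j ≤ A)
    (had : ∀ j, a j ≤ d)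
    (hden : 0 < b 0 * (1 + β * a 0) - ∑ k : Fin N,
      b k.succ * r k.succ ^ 2 * (1 + β * a k.succ + γ * a k.succ ^ 2)) :
    b 0 * (G (1 - a 0 / d) - 1 + a 0) -
        ∑ k : Fin N, b k.succ * (G (1 - a k.succ / d) - 1 + a k.succ) ≤
      κ * (b 0 * a 0 - ∑ k : Fin N, b k.succ * r k.succ * a k.succ) ^ 2 /
        (2 * (b 0 * (1 + β * a 0) - ∑ k : Fin N,
          b k.succ * r k.succ ^ 2 * (1 + β * a k.succ + γ * a k.succ ^ 2))) := by
  obtain ⟨-, hκ, hβ, hγ, -, hH⟩ := hG
  set g : Fin (N + 1) → ℝ := fun j => 1 + β * a j + γ * a j ^ 2 with hg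
  have hg0 : ∀ j, 0 < g j := fun j => by
    have := mul_nonneg hβ (ha j)
    have := mul_nonneg hγ (sq_nonneg (a j))
    simp only [g]; linarith
  set Y := ∑ k : Fin N, b k.succ * r k.succ ^ 2 * g k.succ with hY
  set X := ∑ k : Fin N, b k.succ * r k.succ * a k.succ with hX
  set F := ∑ k : Fin N, b k.succ * (a k.succ ^ 2 / g k.succ) with hF
  set Q := b 0 * (1 + β * a 0) with hQ
  have hY0 : 0 ≤ Y := sum_nonneg fun k _ => mul_nonneg
    (mul_nonneg (hb _) (sq_nonneg _)) (hg0 _).le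
  have hF0 : 0 ≤ F := sum_nonneg fun k _ => mul_nonneg (hb _) (div_nonneg (sq_nonneg _) (hg0 _).le)
  have hXF : X ^ 2 ≤ F * Y :=
    sum_sq_le_sum_mul_sum_of_sq_le_mul _
      (fun k _ => mul_nonneg (hb _) (div_nonneg (sq_nonneg _) (hg0 _).le))
      (fun k _ => mul_nonneg (mul_nonneg (hb _) (sq_nonneg _)) (hg0 _).le)
      fun k _ => le_of_eq (by field_simp [(hg0 k.succ).ne'])
  have hden' : 0 < Q - Y := hden
  have hb0 : 0 < b 0 := by
    rcases (hb 0).eq_or_lt with h | h
    · rw [hQ, ← h] at hden'; linarith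
    · exact h
  have hmain := titu_sub (P := b 0 * a 0) hY0 hXF hF0 hden'
  have h0 : b 0 * (G (1 - a 0 / d) - 1 + a 0) ≤ κ / 2 * ((b 0 * a 0) ^ 2 / Q) := by
    refine (mul_le_mul_of_nonneg_left (hH _ (ha 0) (haA 0) (had 0)).1 (hb 0)).trans (le_of_eq ?_)
    have : 0 < 1 + β * a 0 := by linarith [mul_nonneg hβ (ha 0)]
    rw [hQ]
    field_simp
  have hk : κ / 2 * F ≤ ∑ k : Fin N, b k.succ * (G (1 - a k.succ / d) - 1 + a k.succ) := by
    rw [hF, mul_sum]
    refine sum_le_sum fun k _ => ?_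
    refine le_trans (le_of_eq ?_)
      (mul_le_mul_of_nonneg_left (hH _ (ha _) (haA _) (had _)).2 (hb k.succ))
    simp only [g]
    ring
  have h2 := mul_le_mul_of_nonneg_left hmain (by linarith : (0 : ℝ) ≤ κ / 2)
  calc b 0 * (G (1 - a 0 / d) - 1 + a 0) -
        ∑ k : Fin N, b k.succ * (G (1 - a k.succ / d) - 1 + a k.succ)
      ≤ κ / 2 * ((b 0 * a 0) ^ 2 / Q - F) := by linarith
    _ ≤ κ / 2 * ((b 0 * a 0 - X) ^ 2 / (Q - Y)) := h2
    _ = _ := by rw [div_mul_div_comm]

end PointAssembly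

open PointAssembly in
/-- A pointwise certificate is an affinity certificate. -/
theorem affCert_of_pointCert (hq : 2 ≤ q) (lam : ℝ) (hl : -(1 / ((q : ℝ) - 1)) ≤ lam)
    (hl' : lam ≤ 1) {G : ℝ → ℝ} {d κ β γ A ε : ℝ} {α : Fin (N + 1) → Fin q → ℝ}
    {b r : Fin (N + 1) → ℝ} (hG : GenBounds G d κ β γ A)
    (hP : PointCert lam d κ β γ A ε α b r) : AffCert q lam G := by
  obtain ⟨hε, hb, hα0, hα1, hpt⟩ := hP
  obtain ⟨hd, hκ, hβ, hγ, -, -⟩ := id hG
  let c : Fin (N + 1) → ℝ := Fin.cons (-(b 0)) fun k => b k.succ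
  refine ⟨N + 1, α, fun D => ∑ j, c j * D j, ε, hε, by fun_prop, hα0, hα1, fun L => ?_⟩
  let a : Fin (N + 1) → (Fin q → ℝ) → ℝ := fun j u => d * (1 - aff (α j) fun i => lam * u i)
  let B : (Fin q → ℝ) → ℝ :=
    fun u => b 0 * a 0 u - ∑ k : Fin N, b k.succ * r k.succ * a k.succ u
  let den : (Fin q → ℝ) → ℝ := fun u => b 0 * (1 + β * pav (a 0) u) -
    ∑ k : Fin N, b k.succ * r k.succ ^ 2 *
      (1 + β * pav (a k.succ) u + γ * pav (a k.succ) u ^ 2)
  let R : (Fin q → ℝ) → ℝ := fun u =>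
    (-(b 0) * (1 - pav (aff (α 0)) u) + ∑ k : Fin N, b k.succ * (1 - pav (aff (α k.succ)) u)) -
      (-(b 0) * pav (a 0) u + ∑ k : Fin N, b k.succ * pav (a k.succ) u)
  have hpt' : ∀ u, Dev u → (∀ j, pav (a j) u ≤ A) ∧ 0 < den u ∧
      κ * pav B u ^ 2 / (2 * den u) + ε * ss u ^ 2 ≤ R u := fun u hu => hpt u hu
  have hca : ∀ j, Continuous (a j) := fun j =>
    continuous_const.mul (continuous_const.sub ((continuous_aff (hα0 j)).comp (by fun_prop)))
  -- the averaged values
  set e : Fin (N + 1) → ℝ := fun j => L.E (a j) with he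
  have hed : ∀ j, e j = d * L.defectEdge (α j) lam := fun j => by
    simp only [e, a, Law.defectEdge, L.smul_fun, L.sub_fun, L.const]
  have hnn : ∀ j, 0 ≤ L.E (fun u => aff (α j) fun i => lam * u i) ∧
      L.E (fun u => aff (α j) fun i => lam * u i) ≤ 1 := fun j => by
    refine ⟨le_of_eq_of_le ((L.scale hq lam hl hl').const 0).symm
      ((L.scale hq lam hl hl').mono _ (aff (α j)) fun u hu => prod_nonneg fun i _ =>
        Real.rpow_nonneg (by linarith [hu.2 i]) _), ?_⟩
    refine le_of_le_of_eq ((L.scale hq lam hl hl').mono (aff (α j))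
      (fun u => 1 + ∑ i, α j i * u i) fun u hu => ?_) ?_
    · refine le_of_le_of_eq (Real.geom_mean_le_arith_mean_weighted univ (α j) (fun i => 1 + u i)
        (fun i _ => hα0 j i) (hα1 j) fun i _ => by linarith [hu.2 i]) ?_
      simp only [mul_add, mul_one, sum_add_distrib, hα1 j]
    · rw [Law.add_fun, Law.const, E_fsum]
      simp [Law.smul_fun, Law.mean_zero]
  have he0 : ∀ j, 0 ≤ e j := fun j => by
    rw [hed, Law.defectEdge]; exact mul_nonneg hd.le (by linarith [(hnn j).2])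
  have hedd : ∀ j, e j ≤ d := fun j => by
    rw [hed, Law.defectEdge]; exact mul_le_of_le_one_right hd.le (by linarith [(hnn j).1])
  have heA : ∀ j, e j ≤ A := fun j => by
    rw [he]
    simp only
    rw [← E_pav L (a j)]
    exact le_of_le_of_eq (L.mono _ _ fun u hu => (hpt' u hu).1 j) (L.const A)
  -- the denominator at the mean
  set M := b 0 * (1 + β * e 0) - ∑ k : Fin N,
    b k.succ * r k.succ ^ 2 * (1 + β * e k.succ + γ * e k.succ ^ 2) with hM
  have hEden : L.E den ≤ M := by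
    simp only [den, L.sub_fun, L.add_fun, L.smul_fun, L.const, E_fsum, E_pav]
    rw [hM]
    refine sub_le_sub_left (sum_le_sum fun k _ => mul_le_mul_of_nonneg_left ?_
      (mul_nonneg (hb _) (sq_nonneg _))) _
    refine add_le_add_right (mul_le_mul_of_nonneg_left ?_ hγ) _
    refine le_of_eq_of_le (congrArg (· ^ 2) (E_pav L (a k.succ)).symm) (E_sq L _)
  have hdenc : Continuous den := by
    refine (continuous_const.mul (continuous_const.add (continuous_const.mul
      (continuous_pav (hca 0))))).sub (continuous_finsetSum _ fun k _ => continuous_const.mul ?_)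
    exact (continuous_const.add (continuous_const.mul (continuous_pav (hca _)))).add
      (continuous_const.mul ((continuous_pav (hca _)).pow 2))
  have hMpos : 0 < M := (E_pos L hdenc fun u hu => (hpt' u hu).2.1).trans_le hEden
  have hrem := remainder_le hG b r e hb he0 heA hedd hMpos
  have hEB : L.E B = b 0 * e 0 - ∑ k : Fin N, b k.succ * r k.succ * e k.succ := by
    simp only [B, L.sub_fun, L.smul_fun, E_fsum, e]
  rw [← hEB, ← hM] at hrem
  -- the concave envelope
  have hfrac : κ * L.E B ^ 2 / (2 * M) ≤ L.E (fun u => κ * pav B u ^ 2 / (2 * den u)) := by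
    set k := L.E B / M with hk
    have h1 : L.E (fun u => κ / 2 * (2 * k * pav B u - k ^ 2 * den u)) ≤
        L.E (fun u => κ * pav B u ^ 2 / (2 * den u)) := L.mono _ _ fun u hu => by
      have hdu := (hpt' u hu).2.1
      have : 2 * k * pav B u - k ^ 2 * den u ≤ pav B u ^ 2 / den u := by
        rw [le_div_iff₀ hdu]
        nlinarith [sq_nonneg (pav B u - k * den u)]
      refine (mul_le_mul_of_nonneg_left this (by linarith)).trans (le_of_eq ?_)
      ring
    rw [L.smul_fun, L.sub_fun, L.smul_fun, L.smul_fun, E_pav] at h1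
    refine le_trans ?_ h1
    refine le_trans (le_of_eq ?_) (mul_le_mul_of_nonneg_left (sub_le_sub_left
      (mul_le_mul_of_nonneg_left hEden (sq_nonneg k)) _) (by linarith))
    rw [hk]
    field_simp
    ring
  have hR : L.E (fun u => κ * pav B u ^ 2 / (2 * den u)) + ε * L.E (fun u => ss u ^ 2) ≤ L.E R := by
    rw [← L.smul_fun, ← L.add_fun]
    exact L.mono _ _ fun u hu => (hpt' u hu).2.2
  have hER : L.E R = (-(b 0) * L.defect (α 0) + ∑ k : Fin N, b k.succ * L.defect (α k.succ)) -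
      (-(b 0) * e 0 + ∑ k : Fin N, b k.succ * e k.succ) := by
    simp only [R, L.sub_fun, L.add_fun, L.smul_fun, L.const, E_fsum, E_pav, Law.defect, e]
  rw [hER] at hR
  have hS := mul_le_mul_of_nonneg_left (E_sq L ss) hε.le
  have hG1 : ∀ j, 1 - G (1 - L.defectEdge (α j) lam) = e j - (G (1 - e j / d) - 1 + e j) :=
    fun j => by rw [hed, mul_div_cancel_left₀ _ hd.ne']; ring
  simp only [hG1, Fin.sum_univ_succ, c, Fin.cons_zero, Fin.cons_succ, Law.S, mul_sub,
    sum_sub_distrib] at hrem ⊢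
  linarith

end Vale.Agent.P154
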