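import Vale.Agent.P154.Tree
import Vale.Agent.P154.GW

/-!
P154: monotonicity in `d` on Poisson Galton-Watson trees (thinning).
-/

namespace Vale.Agent.P154.Tr

open Finset

variable {q : ℕ}

/-- An average against weights. -/
noncomputable def ev {α : Type*} (W f : α → ℝ) : ℝ := ∑' x, W x * f x

/-- Probability weights. -/
structure Prob1 {α : Type*} (W : α → ℝ) : Prop where
  nonneg : ∀ x, 0 ≤ W x
  sum : HasSum W 1

section ev

variable {α β : Type*} {W : α → ℝ} {V : β → ℝ}

lemma Prob1.summable (hW : Prob1 W) (f : α → ℝ) (B : ℝ) (h0 : ∀ x, 0 ≤ f x)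
    (hB : ∀ x, f x ≤ B) : Summable fun x => W x * f x :=
  Summable.of_nonneg_of_le (fun x => mul_nonneg (hW.nonneg x) (h0 x))
    (fun x => mul_le_mul_of_nonneg_left (hB x) (hW.nonneg x)) (hW.sum.summable.mul_right B)

lemma ev_nonneg (hW : Prob1 W) {f : α → ℝ} (h0 : ∀ x, 0 ≤ f x) : 0 ≤ ev W f :=
  tsum_nonneg fun x => mul_nonneg (hW.nonneg x) (h0 x)

lemma ev_le (hW : Prob1 W) {f : α → ℝ} {B : ℝ} (h0 : ∀ x, 0 ≤ f x) (hB : ∀ x, f x ≤ B) :
    ev W f ≤ B := by
  refine hasSum_le (fun x => mul_le_mul_of_nonneg_left (hB x) (hW.nonneg x))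
    (hW.summable f B h0 hB).hasSum ?_
  simpa using hW.sum.mul_right B

lemma ev_mono (hW : Prob1 W) {f g : α → ℝ} {B : ℝ} (h0 : ∀ x, 0 ≤ f x) (hfg : ∀ x, f x ≤ g x)
    (hg : ∀ x, g x ≤ B) : ev W f ≤ ev W g :=
  (hW.summable f B h0 fun x => (hfg x).trans (hg x)).tsum_le_tsum
    (fun x => mul_le_mul_of_nonneg_left (hfg x) (hW.nonneg x))
    (hW.summable g B (fun x => (h0 x).trans (hfg x)) hg)

lemma ev_const (hW : Prob1 W) (c : ℝ) : ev W (fun _ => c) = c := by
  simpa [ev] using (hW.sum.mul_right c).tsum_eq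

lemma ev_comm (hW : Prob1 W) (hV : Prob1 V) {f : α → β → ℝ} {B : ℝ} (h0 : ∀ x y, 0 ≤ f x y)
    (hB : ∀ x y, f x y ≤ B) :
    ev W (fun x => ev V (f x)) = ev V fun y => ev W fun x => f x y := by
  have hs : Summable (Function.uncurry fun x y => W x * V y * f x y) := by
    refine Summable.of_nonneg_of_le (fun p => mul_nonneg (mul_nonneg (hW.nonneg _) (hV.nonneg _))
      (h0 _ _)) (fun p => mul_le_mul_of_nonneg_left (hB _ _)
      (mul_nonneg (hW.nonneg _) (hV.nonneg _))) ?_
    exact (hW.sum.summable.mul_of_nonneg hV.sum.summable hW.nonneg hV.nonneg).mul_right B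
  simp only [ev, ← tsum_mul_left]
  rw [show (fun x => ∑' y, W x * (V y * f x y)) = fun x => ∑' y, W x * V y * f x y by
    simp only [mul_assoc]]
  rw [hs.tsum_comm.symm]
  exact tsum_congr fun y => tsum_congr fun x => by ring

end ev

/-- Bounded test functions for the information order. -/
structure Test (B : ℝ) (G : (Fin q → ℝ) → ℝ) : Prop where
  sub : Sublin G
  nonneg : ∀ w, (∀ i, 0 ≤ w i) → 0 ≤ G w
  le : ∀ w, (∀ i, 0 ≤ w i) → G w ≤ B * mean w

variable {B : ℝ} {G : (Fin q → ℝ) → ℝ}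

lemma Test.S_nonneg (hG : Test B G) (e : Ens q) : 0 ≤ e.S G :=
  sum_nonneg fun x _ => hG.nonneg _ (e.nonneg x)

lemma Test.S_le (hG : Test B G) (hq : 1 ≤ q) (e : Ens q) : e.S G ≤ B := by
  refine (sum_le_sum fun x _ => hG.le _ (e.nonneg x)).trans (le_of_eq ?_)
  have h := e.E_const hq B
  rw [Ens.E_eq] at h
  simpa [mul_comm] using h

/-- The test function seen by a second observation. -/
noncomputable def slot (e : Ens q) (G : (Fin q → ℝ) → ℝ) (w : Fin q → ℝ) : ℝ :=
  e.S fun z => G fun i => z i * w i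

lemma S_mul_slot (a b : Ens q) (G : (Fin q → ℝ) → ℝ) : (a.mul b).S G = b.S (slot a G) := by
  rw [Ens.S_mul, Finset.sum_comm]
  rfl

lemma S_mul_slot' (a b : Ens q) (G : (Fin q → ℝ) → ℝ) : (a.mul b).S G = a.S (slot b G) := by
  rw [Ens.S_mul]
  exact Finset.sum_congr rfl fun x _ => Finset.sum_congr rfl fun y _ =>
    congrArg G (funext fun i => mul_comm _ _)

lemma Test.slot (hG : Test B G) (e : Ens q) : Test B (slot e G) := by
  refine ⟨⟨fun x y => ?_, fun c hc x => ?_⟩, fun w hw => ?_, fun w hw => ?_⟩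
  · simp only [Tr.slot, Ens.S, ← sum_add_distrib]
    refine sum_le_sum fun z _ => le_of_eq_of_le (congrArg G ?_) (hG.sub.add _ _)
    funext i; simp [mul_add]
  · simp only [Tr.slot, Ens.S, mul_sum, ← hG.sub.smul c hc]
    refine sum_congr rfl fun z _ => congrArg G (funext fun i => ?_)
    simp; ring
  · exact sum_nonneg fun z _ => hG.nonneg _ fun i => mul_nonneg (e.nonneg z i) (hw i)
  · refine (sum_le_sum fun z _ => hG.le _ fun i => mul_nonneg (e.nonneg z i) (hw i)).trans
      (le_of_eq ?_)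
    simp only [mean, ← mul_sum, ← sum_div]
    rw [Finset.sum_comm]
    simp [← sum_mul, e.sum_one]

lemma Test.chan (hG : Test B G) (hq : 1 ≤ q) (lam : ℝ) (h : -1 ≤ lam * ((q : ℝ) - 1))
    (h' : lam ≤ 1) : Test B fun w => G (chanV lam w) := by
  have hnn : ∀ w : Fin q → ℝ, (∀ i, 0 ≤ w i) → ∀ i, 0 ≤ chanV lam w i := fun w hw i => by
    rw [← potts_sum]
    exact sum_nonneg fun j _ => mul_nonneg (potts_nonneg h h' hq i j) (hw j)
  refine ⟨⟨fun x y => le_of_eq_of_le (congrArg G ?_) (hG.sub.add _ _), fun c hc x => ?_⟩,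
    fun w hw => hG.nonneg _ (hnn w hw), fun w hw => ?_⟩
  · funext i; simp [chanV, mean, sum_add_distrib, add_div]; ring
  · rw [← hG.sub.smul c hc]
    refine congrArg G (funext fun i => ?_)
    simp [chanV, mean, ← mul_sum]
    ring
  · exact (hG.le _ (hnn w hw)).trans_eq (by rw [mean_chanV hq])

lemma test_tv (hq : 1 ≤ q) :
    Test 1 (fun w : Fin q → ℝ => (∑ i, |w i - mean w|) / (2 * q)) := by
  have hq' : (0 : ℝ) < q := by positivity
  refine ⟨⟨fun x y => ?_, fun c hc x => ?_⟩, fun w _ => by positivity, fun w hw => ?_⟩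
  · rw [← add_div, ← sum_add_distrib]
    gcongr with i
    refine le_of_eq_of_le ?_ (abs_add_le _ _)
    congr 1
    simp [mean, sum_add_distrib, add_div]
    ring
  · rw [← mul_div_assoc, mul_sum]
    congr 1
    refine Finset.sum_congr rfl fun i _ => ?_
    rw [← abs_of_nonneg hc, ← abs_mul, abs_of_nonneg hc]
    congr 1
    simp [mean, ← mul_sum]
    ring
  · have hm := mean_nonneg hw
    rw [one_mul, div_le_iff₀ (by positivity)]
    calc ∑ i, |w i - mean w| ≤ ∑ i, (w i + mean w) :=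
          sum_le_sum fun i _ => abs_le.2 ⟨by linarith [hw i], by linarith⟩
      _ = mean w * (2 * q) := by
          rw [sum_add_distrib, sum_const, card_univ, Fintype.card_fin, nsmul_eq_mul,
            show (∑ i, w i) = q * mean w by rw [mean, mul_div_cancel₀ _ hq'.ne']]
          ring

variable (lam : ℝ) (h : -1 ≤ lam * ((q : ℝ) - 1)) (h' : lam ≤ 1)

lemma advantage_eq_S (hq : 1 ≤ q) (n : ℕ) (T : Tree n) :
    advantage q lam n T =
      (treeE lam h h' n T).S (fun w => (∑ i, |w i - mean w|) / (2 * q)) := by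
  rw [advantage_eq lam h h' hq, ET]
  refine Finset.sum_congr rfl fun x _ => ?_
  rw [pers, ← mul_div_assoc, mul_sum]
  congr 1
  refine Finset.sum_congr rfl fun i _ => ?_
  nth_rewrite 1 [← abs_of_nonneg (mean_nonneg ((treeE lam h h' n T).nonneg x))]
  rw [← abs_mul]
  congr 1
  linear_combination mean_mul_one_add_dev hq ((treeE lam h h' n T).nonneg x) i

/-- The root observation given the subtrees of the children. -/
noncomputable def kids (n k : ℕ) (x : Fin k → Tree n) : Ens q :=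
  Ens.prodE k fun c => (treeE lam h h' n (x c)).chanE lam h h'

/-- The weights of `k` independent subtrees. -/
noncomputable def kidW (d : ℝ) (n k : ℕ) (x : Fin k → Tree n) : ℝ := ∏ c, gwWeight d n (x c)

lemma prob1_gw {d : ℝ} (hd : 0 ≤ d) (n : ℕ) : Prob1 (gwWeight d n) :=
  ⟨GW.gwWeight_nonneg hd n, GW.hasSum_gwWeight hd n⟩

lemma prob1_kidW {d : ℝ} (hd : 0 ≤ d) (n k : ℕ) : Prob1 (kidW d n k) :=
  ⟨fun x => prod_nonneg fun c _ => GW.gwWeight_nonneg hd n _, by
    have := GW.hasSum_pi_prod k (fun _ => gwWeight d n) (fun _ => 1)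
      fun _ => GW.hasSum_gwWeight hd n
    simp only [prod_const_one] at this
    exact this⟩

/-- The average over `k` independent subtrees. -/
noncomputable def fib (d : ℝ) (n k : ℕ) (G : (Fin q → ℝ) → ℝ) : ℝ :=
  ev (kidW d n k) fun x => (kids lam h h' n k x).S G

lemma fib_succ (hq : 1 ≤ q) {d : ℝ} (hd : 0 ≤ d) (n k : ℕ) (hG : Test B G) :
    fib lam h h' d n (k + 1) G = ev (gwWeight d n) fun t =>
      fib lam h h' d n k (slot ((treeE lam h h' n t).chanE lam h h') G) := by
  have hs := (prob1_kidW hd n (k + 1)).summable (fun x => (kids lam h h' n (k + 1) x).S G) B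
    (fun x => hG.S_nonneg _) fun x => hG.S_le hq _
  rw [fib, ev, ← (Fin.consEquiv fun _ : Fin (k + 1) => Tree n).tsum_eq]
  rw [← (Fin.consEquiv fun _ : Fin (k + 1) => Tree n).summable_iff] at hs
  simp only [Function.comp_def] at hs
  rw [hs.tsum_prod, ev]
  refine tsum_congr fun t => ?_
  rw [fib, ev, ← tsum_mul_left]
  refine tsum_congr fun x => ?_
  rw [← S_mul_slot, ← mul_assoc]
  simp only [kidW, kids, Fin.consEquiv_apply, Fin.prod_univ_succ,
    Fin.cons_zero, Fin.cons_succ, Ens.prodE]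

/-- Monotone in the law of the children. -/
lemma fib_mono_law (hq : 1 ≤ q) {d d' : ℝ} (hd : 0 ≤ d) (hd' : 0 ≤ d') (n : ℕ)
    (hn : ∀ (B : ℝ) (G : (Fin q → ℝ) → ℝ), Test B G →
      ev (gwWeight d n) (fun t => (treeE lam h h' n t).S G) ≤
        ev (gwWeight d' n) fun t => (treeE lam h h' n t).S G) :
    ∀ (k : ℕ) (G : (Fin q → ℝ) → ℝ), Test B G → fib lam h h' d n k G ≤ fib lam h h' d' n k G := by
  intro k
  induction k with
  | zero =>
    intro G hG
    refine le_of_eq ?_
    have : ∀ x : Fin 0 → Tree n, (kids lam h h' n 0 x).S G = (Ens.one q).S G := fun x => rfl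
    simp only [fib, this, ev_const (prob1_kidW hd n 0), ev_const (prob1_kidW hd' n 0)]
  | succ k ih =>
    intro G hG
    have hle : ∀ (t : Tree n) (x : Fin k → Tree n),
        (kids lam h h' n k x).S (slot ((treeE lam h h' n t).chanE lam h h') G) ≤ B :=
      fun t x => (hG.slot _).S_le hq _
    have hge : ∀ (t : Tree n) (x : Fin k → Tree n),
        0 ≤ (kids lam h h' n k x).S (slot ((treeE lam h h' n t).chanE lam h h') G) :=
      fun t x => (hG.slot _).S_nonneg _
    have hswap : ∀ (t : Tree n) (x : Fin k → Tree n),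
        (kids lam h h' n k x).S (slot ((treeE lam h h' n t).chanE lam h h') G) =
          (treeE lam h h' n t).S fun w => slot (kids lam h h' n k x) G (chanV lam w) :=
      fun t x => by rw [← S_mul_slot, S_mul_slot', Ens.S_chanE]
    rw [fib_succ lam h h' hq hd n k hG, fib_succ lam h h' hq hd' n k hG]
    refine le_trans (ev_mono (prob1_gw hd n) (g := fun t => fib lam h h' d' n k
      (slot ((treeE lam h h' n t).chanE lam h h') G)) (B := B)
      (fun t => ev_nonneg (prob1_kidW hd n k) fun x => hge t x) (fun t => ih _ (hG.slot _))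
      fun t => ev_le (prob1_kidW hd' n k) (hge t) (hle t)) ?_
    simp only [fib]
    rw [ev_comm (prob1_gw hd n) (prob1_kidW hd' n k) hge hle,
      ev_comm (prob1_gw hd' n) (prob1_kidW hd' n k) hge hle]
    refine ev_mono (prob1_kidW hd' n k) (B := B)
      (fun x => ev_nonneg (prob1_gw hd n) fun t => hge t x) (fun x => ?_)
      fun x => ev_le (prob1_gw hd' n) (fun t => hge t x) fun t => hle t x
    simp only [hswap]
    exact hn B _ ((hG.slot _).chan hq lam h h')

/-- More children, more information. -/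
lemma fib_le_succ (hq : 1 ≤ q) {d : ℝ} (hd : 0 ≤ d) (n k : ℕ) (hG : Test B G) :
    fib lam h h' d n k G ≤ fib lam h h' d n (k + 1) G := by
  rw [fib_succ lam h h' hq hd n k hG]
  nth_rewrite 1 [← ev_const (prob1_gw hd n) (fib lam h h' d n k G)]
  refine ev_mono (prob1_gw hd n) (B := B)
    (fun t => ev_nonneg (prob1_kidW hd n k) fun x => hG.S_nonneg _) (fun t => ?_)
    fun t => ev_le (prob1_kidW hd n k) (fun x => (hG.slot _).S_nonneg _)
      fun x => (hG.slot _).S_le hq _
  refine ev_mono (prob1_kidW hd n k) (B := B) (fun x => hG.S_nonneg _) (fun x => ?_)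
    fun x => (hG.slot _).S_le hq _
  rw [← S_mul_slot]
  refine le_trans (le_of_eq ?_) (Ens.Le.mul (Ens.one_le _) (Ens.Le.rfl' _) G hG.sub)
  rw [Ens.S_mul]
  show _ = ∑ _x : Unit, ∑ y, G _
  simp only [Fintype.sum_unique]
  exact Finset.sum_congr rfl fun y _ => congrArg G (funext fun i => (one_mul _).symm)

/-- `pois (d + e)` is the convolution. -/
lemma pois_add (d e : ℝ) (k : ℕ) :
    GW.pois (d + e) k = ∑ p ∈ antidiagonal k, GW.pois d p.1 * GW.pois e p.2 := by
  rw [Finset.Nat.sum_antidiagonal_eq_sum_range_succ_mk]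
  simp only [GW.pois, neg_add, Real.exp_add]
  rw [add_pow, mul_sum, sum_div]
  refine sum_congr rfl fun j hj => ?_
  have hjk : j ≤ k := Nat.lt_succ_iff.1 (mem_range.1 hj)
  rw [Nat.cast_choose ℝ hjk]
  have : (Nat.factorial j : ℝ) ≠ 0 := by exact_mod_cast Nat.factorial_ne_zero j
  have : (Nat.factorial (k - j) : ℝ) ≠ 0 := by exact_mod_cast Nat.factorial_ne_zero (k - j)
  have : (Nat.factorial k : ℝ) ≠ 0 := by exact_mod_cast Nat.factorial_ne_zero k
  field_simp

/-- Poisson laws increase stochastically. -/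
lemma pois_mono {F : ℕ → ℝ} (h0 : ∀ k, 0 ≤ F k) (hB : ∀ k, F k ≤ B) (hF : Monotone F) {d d' : ℝ}
    (hd : 0 ≤ d) (hdd : d ≤ d') : ev (GW.pois d) F ≤ ev (GW.pois d') F := by
  obtain ⟨e, he0, rfl⟩ : ∃ e, 0 ≤ e ∧ d' = d + e := ⟨d' - d, sub_nonneg.2 hdd, by ring⟩
  have P : ∀ x, 0 ≤ x → Prob1 (GW.pois x) := fun x hx => ⟨GW.pois_nonneg hx, GW.hasSum_pois x⟩
  have hf := (P d hd).summable F B h0 hB
  have hg := (P e he0).sum.summable
  have hfg := hf.mul_of_nonneg hg (fun k => mul_nonneg (GW.pois_nonneg hd k) (h0 k))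
    (GW.pois_nonneg he0)
  have h := hf.tsum_mul_tsum_eq_tsum_sum_antidiagonal hg hfg
  rw [(P e he0).sum.tsum_eq, mul_one] at h
  have hs := summable_sum_mul_antidiagonal_of_summable_mul (A := ℕ)
    (f := fun k => GW.pois d k * F k) (g := GW.pois e) hfg
  have hs' := (P (d + e) (hd.trans hdd)).summable F B h0 hB
  simp only [ev]
  refine le_of_eq_of_le h (Summable.tsum_le_tsum (fun k => ?_) hs hs')
  rw [pois_add, sum_mul]
  refine sum_le_sum fun p hp => ?_
  rw [mul_right_comm (GW.pois d p.1) (F p.1)]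
  refine mul_le_mul_of_nonneg_left (hF ?_) (mul_nonneg (GW.pois_nonneg hd _) (GW.pois_nonneg he0 _))
  have := mem_antidiagonal.1 hp
  omega

lemma ev_succ (hq : 1 ≤ q) {d : ℝ} (hd : 0 ≤ d) (n : ℕ) (hG : Test B G) :
    ev (gwWeight d (n + 1)) (fun T => (treeE lam h h' (n + 1) T).S G) =
      ev (GW.pois d) fun k => fib lam h h' d n k G := by
  refine HasSum.tsum_eq ?_
  refine GW.hasSum_of_fibres_nonneg hd n _ (fun T => hG.S_nonneg _)
    (fun k => fib lam h h' d n k G) _ (fun k => ?_) ?_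
  · exact ((prob1_kidW hd n k).summable _ B (fun x => hG.S_nonneg _) fun x => hG.S_le hq _).hasSum
  · exact (Summable.hasSum <| Prob1.summable ⟨GW.pois_nonneg hd, GW.hasSum_pois d⟩ _ B
      (fun k => ev_nonneg (prob1_kidW hd n k) fun x => hG.S_nonneg _)
      fun k => ev_le (prob1_kidW hd n k) (fun x => hG.S_nonneg _) fun x => hG.S_le hq _)

/-- The tree of the larger parameter is the more informative one. -/
theorem ev_mono_param (hq : 1 ≤ q) {d d' : ℝ} (hd : 0 ≤ d) (hdd : d ≤ d') :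
    ∀ (n : ℕ) (B : ℝ) (G : (Fin q → ℝ) → ℝ), Test B G →
      ev (gwWeight d n) (fun t => (treeE lam h h' n t).S G) ≤
        ev (gwWeight d' n) fun t => (treeE lam h h' n t).S G := by
  have hd' : 0 ≤ d' := hd.trans hdd
  intro n
  induction n with
  | zero => intro B G _; exact le_rfl
  | succ n ih =>
    intro B G hG
    rw [ev_succ lam h h' hq hd n hG, ev_succ lam h h' hq hd' n hG]
    have h0 : ∀ k, 0 ≤ fib lam h h' d n k G :=
      fun k => ev_nonneg (prob1_kidW hd n k) fun x => hG.S_nonneg _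
    have hB : ∀ x, 0 ≤ x → ∀ k, fib lam h h' x n k G ≤ B := fun x hx k =>
      ev_le (prob1_kidW hx n k) (fun y => hG.S_nonneg _) fun y => hG.S_le hq _
    refine (pois_mono h0 (hB d hd) (monotone_nat_of_le_succ fun k =>
      fib_le_succ lam h h' hq hd n k hG) hd hdd).trans ?_
    exact ev_mono (⟨GW.pois_nonneg hd', GW.hasSum_pois d'⟩ : Prob1 (GW.pois d')) h0
      (fun k => fib_mono_law lam h h' hq hd hd' n ih k G hG) (hB d' hd')

end Vale.Agent.P154.Tr

namespace Vale.Agent.P154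

/-- Thinning: `a_n` on Poisson trees increases with `d`. -/
theorem aPoisson_mono {q : ℕ} (hq : 2 ≤ q) (lam : ℝ) (hl : -(1 / ((q : ℝ) - 1)) ≤ lam)
    (hl' : lam ≤ 1) {d d' : ℝ} (hd : 0 ≤ d) (hdd : d ≤ d') (n : ℕ) :
    aPoisson q lam d n ≤ aPoisson q lam d' n := by
  have hq1 : 1 ≤ q := by omega
  simp only [aPoisson, Tr.advantage_eq_S lam (lam_channel hq hl) hl' hq1]
  exact Tr.ev_mono_param lam (lam_channel hq hl) hl' hq1 hd hdd n 1 _ (Tr.test_tv hq1)

theorem aPoisson_nonneg {q : ℕ} (hq : 2 ≤ q) (lam : ℝ) (hl : -(1 / ((q : ℝ) - 1)) ≤ lam)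
    (hl' : lam ≤ 1) {d : ℝ} (hd : 0 ≤ d) (n : ℕ) : 0 ≤ aPoisson q lam d n :=
  tsum_nonneg fun T => mul_nonneg (GW.gwWeight_nonneg hd n T) (advantage_nonneg hq lam hl hl' n T)

/-- Nonreconstruction passes to smaller `d`. -/
theorem nonReconstructs_poisson_mono {q : ℕ} (hq : 2 ≤ q) (lam : ℝ)
    (hl : -(1 / ((q : ℝ) - 1)) ≤ lam) (hl' : lam ≤ 1) {d d' : ℝ} (hd : 0 ≤ d) (hdd : d ≤ d')
    (hN : NonReconstructs (aPoisson q lam d')) : NonReconstructs (aPoisson q lam d) :=
  squeeze_zero (aPoisson_nonneg hq lam hl hl' hd) (aPoisson_mono hq lam hl hl' hd hdd) hN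

/-- Nonreconstruction passes to smaller `d` on regular trees. -/
theorem nonReconstructs_regular_mono {q : ℕ} (hq : 2 ≤ q) (lam : ℝ)
    (hl : -(1 / ((q : ℝ) - 1)) ≤ lam) (hl' : lam ≤ 1) {d d' : ℕ} (hdd : d ≤ d')
    (hN : NonReconstructs (aRegular q lam d')) : NonReconstructs (aRegular q lam d) :=
  squeeze_zero (fun n => advantage_nonneg hq lam hl hl' n _) (aRegular_mono hq lam hl hl' hdd) hN

end Vale.Agent.P154
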