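import Vale.Agent.P154.PoissonMono

/-!
P154: reduction of a range of `lam < 0` to the critical curve.
-/

namespace Vale.Agent.P154

open Filter Topology

variable {q : ℕ}

theorem lam_of_channel (hq : 2 ≤ q) {μ : ℝ} (hμ : 0 ≤ μ) : -1 ≤ μ * ((q : ℝ) - 1) := by
  have h2 : (2 : ℝ) ≤ q := by exact_mod_cast hq
  linarith [mul_nonneg hμ (show (0 : ℝ) ≤ (q : ℝ) - 1 by linarith)]

/-- A weaker channel gives a smaller advantage on every tree. -/
theorem advantage_mono_lam (hq : 2 ≤ q) (μ b : ℝ) (hμ : 0 ≤ μ) (hμ' : μ ≤ 1)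
    (hb : -(1 / ((q : ℝ) - 1)) ≤ b) (hb' : b ≤ 1) (hab : -(1 / ((q : ℝ) - 1)) ≤ μ * b)
    (hab' : μ * b ≤ 1) (n : ℕ) (T : Tree n) :
    advantage q (μ * b) n T ≤ advantage q b n T := by
  have hq1 : 1 ≤ q := by omega
  refine Tr.advantage_le_of_Le b (lam_channel hq hb) hb' hq1 (lam_channel hq hab) hab' ?_
  induction n with
  | zero => exact Tr.Ens.Le.rfl' _
  | succ n ih =>
    refine Tr.Ens.Le.prodE _ _ _ fun c => ?_
    exact ((ih (T.2 c)).chanE (μ * b) (lam_channel hq hab) hab').trans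
      (Tr.Ens.chanE_mul_le _ hq1 μ b (lam_of_channel hq hμ) hμ' (lam_channel hq hb) hb'
        (lam_channel hq hab) hab')

theorem nonReconstructs_regular_degrade (hq : 2 ≤ q) {lam lam' : ℝ}
    (h' : -(1 / ((q : ℝ) - 1)) ≤ lam') (hl : lam' ≤ lam) (h0 : lam < 0) (d : ℕ)
    (hN : NonReconstructs (aRegular q lam' d)) : NonReconstructs (aRegular q lam d) := by
  have hne : lam' < 0 := hl.trans_lt h0
  have hl1 : lam ≤ 1 := by linarith
  refine squeeze_zero (fun n => advantage_nonneg hq lam (h'.trans hl) hl1 n _) (fun n => ?_) hN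
  have he : lam = lam / lam' * lam' := (div_mul_cancel₀ _ hne.ne).symm
  have hμ : 0 ≤ lam / lam' := div_nonneg_of_nonpos h0.le hne.le
  have hμ' : lam / lam' ≤ 1 := (div_le_one_of_neg hne).2 hl
  show advantage q lam n _ ≤ advantage q lam' n _
  rw [he]
  exact advantage_mono_lam hq _ lam' hμ hμ' h' (by linarith) (he ▸ h'.trans hl) (he ▸ hl1) n _

/-- If nonreconstruction holds on the critical curve for `lam ∈ [-1/√D, 0)`, it holds below it. -/
theorem nonReconstructs_of_critical (hq : 2 ≤ q) (D : ℕ) (hD : 1 ≤ D)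
    (hadm : -(1 / ((q : ℝ) - 1)) ≤ -(1 / Real.sqrt D))
    (hP : ∀ lam : ℝ, -(1 / Real.sqrt D) ≤ lam → lam < 0 →
      NonReconstructs (aPoisson q lam (1 / lam ^ 2)))
    (hR : ∀ d : ℕ, D ≤ d → NonReconstructs (aRegular q (-(1 / Real.sqrt d)) d))
    (lam : ℝ) (hl : -(1 / Real.sqrt D) ≤ lam) (h0 : lam < 0) :
    (∀ d : ℕ, (d : ℝ) * lam ^ 2 ≤ 1 → NonReconstructs (aRegular q lam d)) ∧
      ∀ d : ℝ, 0 ≤ d → d * lam ^ 2 ≤ 1 → NonReconstructs (aPoisson q lam d) := by
  have hla := hadm.trans hl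
  have hl1 : lam ≤ 1 := by linarith
  have hlam2 : 0 < lam ^ 2 := pow_two_pos_of_ne_zero h0.ne
  refine ⟨fun d hd => ?_, fun d hd0 hd => ?_⟩
  · set m := max d D with hm
    have hm0 : (0 : ℝ) < m := by exact_mod_cast (hD.trans (le_max_right d D))
    have hD0 : (0 : ℝ) < D := by exact_mod_cast hD
    have hle : -(1 / Real.sqrt m) ≤ lam := by
      rcases le_total D d with h | h
      · rw [hm, max_eq_left h] at hm0 ⊢
        have hsd := Real.sqrt_pos.2 hm0
        have : (-lam) * Real.sqrt d ≤ 1 := by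
          nlinarith [Real.mul_self_sqrt hm0.le, sq_nonneg ((-lam) * Real.sqrt d - 1)]
        rw [neg_le, le_div_iff₀ hsd]
        linarith
      · rw [hm, max_eq_right h]; exact hl
    have hadm' : -(1 / ((q : ℝ) - 1)) ≤ -(1 / Real.sqrt m) := by
      refine hadm.trans (neg_le_neg ?_)
      gcongr
      exact_mod_cast le_max_right d D
    exact nonReconstructs_regular_mono hq lam hla hl1 (le_max_left d D)
      (nonReconstructs_regular_degrade hq hadm' hle h0 m (hR m (le_max_right d D)))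
  · exact nonReconstructs_poisson_mono hq lam hla hl1 hd0 ((le_div_iff₀ hlam2).2 hd) (hP lam hl h0)

end Vale.Agent.P154
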