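import Vale.Agent.P154.FerroNode
import Vale.Agent.P154.GW

/-!
Nonreconstruction on Poisson Galton-Watson trees from a ferromagnetic certificate.
-/

namespace Vale.Agent.P154

open Filter Topology

noncomputable section

variable {q : ℕ}

theorem tangent_pow {a b : ℝ} (ha : 0 ≤ a) (hb : 0 ≤ b) :
    ∀ m : ℕ, b ^ (m + 1) + (m + 1 : ℕ) * b ^ m * (a - b) ≤ a ^ (m + 1) := by
  intro m
  induction m with
  | zero => simp
  | succ m ih =>
    have h1 := mul_le_mul_of_nonneg_left ih ha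
    have h2 : 0 ≤ ((m + 1 : ℕ) : ℝ) * b ^ m * (a - b) ^ 2 := by positivity
    push_cast at h1 h2 ⊢
    rw [pow_succ a (m + 1), pow_succ b (m + 1), pow_succ b m] at *
    nlinarith

theorem tendsto_zero_of_recursion {X : ℕ → ℝ} {c : ℝ} {m : ℕ} (hc : 0 < c) (h0 : ∀ n, 0 ≤ X n)
    (h : ∀ n, X (n + 1) ≤ X n - c * X n ^ (m + 1)) : Tendsto X atTop (𝓝 0) := by
  have hanti : Antitone X := antitone_nat_of_succ_le fun n =>
    (h n).trans (by linarith [mul_nonneg hc.le (pow_nonneg (h0 n) (m + 1))])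
  have hbdd : BddBelow (Set.range X) := ⟨0, by rintro _ ⟨n, rfl⟩; exact h0 n⟩
  have hlim := tendsto_atTop_ciInf hanti hbdd
  set L := ⨅ n, X n
  have hL : L ≤ L - c * L ^ (m + 1) :=
    le_of_tendsto_of_tendsto' (hlim.comp (tendsto_add_atTop_nat 1))
      (hlim.sub ((hlim.pow (m + 1)).const_mul c)) h
  have hL0 : 0 ≤ L := le_ciInf h0
  rcases hL0.eq_or_lt with h' | h'
  · rwa [← h'] at hlim
  · exfalso
    linarith [mul_pos hc (pow_pos h' (m + 1))]

/-- The total variation test function is controlled by the second moment. -/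
theorem abs_test_le (hq : 2 ≤ q) (u : Fin q → ℝ) {δ : ℝ} (hδ : 0 < δ) :
    (∑ i, |u i|) / (2 * q) ≤ δ / 4 + ((q : ℝ) - 1) / (4 * δ) * ss u := by
  have hq' : (2 : ℝ) ≤ q := by exact_mod_cast hq
  have h : ∑ i, |u i| ≤ ∑ i, (δ / 2 + u i ^ 2 / (2 * δ)) := by
    refine Finset.sum_le_sum fun i _ => ?_
    rw [div_add_div _ _ two_ne_zero (by positivity : (2 * δ) ≠ 0), le_div_iff₀ (by positivity)]
    nlinarith [sq_nonneg (|u i| - δ), sq_abs (u i)]
  rw [Finset.sum_add_distrib, Finset.sum_const, Finset.card_univ, Fintype.card_fin, nsmul_eq_mul,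
    ← Finset.sum_div] at h
  have hq1 : (0 : ℝ) < (q : ℝ) - 1 := by linarith
  have hne : ((q : ℝ) - 1) ≠ 0 := hq1.ne'
  refine (div_le_div_of_nonneg_right h (by positivity)).trans (le_of_eq ?_)
  rw [ss]
  field_simp
  ring

theorem Law.abs_test_le (hq : 2 ≤ q) (A : Law q) {δ : ℝ} (hδ : 0 < δ) :
    A.E (fun u => (∑ i, |u i|) / (2 * q)) ≤ δ / 4 + ((q : ℝ) - 1) / (4 * δ) * A.S := by
  refine (A.mono _ _ fun u _ => Vale.Agent.P154.abs_test_le hq u hδ).trans (le_of_eq ?_)
  rw [A.add_fun, A.const, A.smul_fun]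
  rfl

namespace FerroData

variable {hq : 2 ≤ q} (F : FerroData q hq) {lam d : ℝ} (h0 : 0 ≤ lam) (h1 : lam ≤ 1)

/-- The expected second moment at depth `n`. -/
def mean (_F : FerroData q hq) (h0 : 0 ≤ lam) (h1 : lam ≤ 1) (d : ℝ) (n : ℕ) : ℝ :=
  ∑' T : Tree n, gwWeight d n T * (treeLaw hq lam (lam_lower hq h0) h1 n T).S

theorem hasSum_mean (hd : 0 ≤ d) (n : ℕ) :
    HasSum (fun T => gwWeight d n T * (treeLaw hq lam (lam_lower hq h0) h1 n T).S)
      (F.mean h0 h1 d n) :=
  (GW.summable_of_bounded hd n _ 1 fun T => by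
    rw [abs_of_nonneg (Law.S_nonneg hq _)]
    exact Law.S_le_one hq _).hasSum

theorem mean_nonneg (hd : 0 ≤ d) (n : ℕ) : 0 ≤ F.mean h0 h1 d n :=
  tsum_nonneg fun T => mul_nonneg (GW.gwWeight_nonneg hd n T) (Law.S_nonneg hq _)

theorem moment_ge (hd : 0 ≤ d) (n : ℕ) {M : ℝ}
    (hM : HasSum (fun T => gwWeight d n T *
      (treeLaw hq lam (lam_lower hq h0) h1 n T).S ^ F.m) M) :
    F.mean h0 h1 d n ^ F.m ≤ M := by
  obtain ⟨m, hm⟩ := Nat.exists_eq_add_of_le' F.one_le_m
  rw [hm] at hM ⊢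
  set X := F.mean h0 h1 d n
  have hlow := ((GW.hasSum_gwWeight hd n).mul_right (X ^ (m + 1))).add
    (((F.hasSum_mean h0 h1 hd n).sub ((GW.hasSum_gwWeight hd n).mul_right X)).mul_left
      ((m + 1 : ℕ) * X ^ m))
  simp only [one_mul] at hlow
  rw [show F.mean h0 h1 d n - X = 0 from sub_self _, mul_zero, add_zero] at hlow
  refine hasSum_le (fun T => ?_) hlow hM
  have h := tangent_pow (a := (treeLaw hq lam (lam_lower hq h0) h1 n T).S) (b := X)
    (Law.S_nonneg hq _) (F.mean_nonneg h0 h1 hd n) m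
  have h2 := mul_le_mul_of_nonneg_left h (GW.gwWeight_nonneg hd n T)
  refine le_trans (le_of_eq ?_) h2
  ring

theorem mean_succ_le (hd : 0 ≤ d) (n : ℕ) :
    F.mean h0 h1 d (n + 1) ≤ d * lam ^ 2 * F.mean h0 h1 d n -
      F.ε * (lam ^ 2) ^ (F.m + 1) * GW.pois d 2 * F.mean h0 h1 d n ^ (F.m + 1) := by
  classical
  set S : Tree n → ℝ := fun T => (treeLaw hq lam (lam_lower hq h0) h1 n T).S with hS
  have hS0 : ∀ T, 0 ≤ S T := fun T => Law.S_nonneg hq _
  have hS1 : ∀ T, S T ≤ 1 := fun T => Law.S_le_one hq _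
  set X := F.mean h0 h1 d n with hX
  obtain ⟨M, hM⟩ := GW.summable_of_bounded hd n (fun T => S T ^ F.m) 1 fun T => by
    rw [abs_of_nonneg (pow_nonneg (hS0 T) _)]
    exact pow_le_one₀ (hS0 T) (hS1 T)
  have hXsum : HasSum (fun T => gwWeight d n T * S T) X := F.hasSum_mean h0 h1 hd n
  set G : Tree (n + 1) → ℝ := fun T =>
    if T.1 = 2 then ∏ c : Fin T.1, (if (c : ℕ) = 0 then S (T.2 c) ^ F.m else S (T.2 c)) else 0
    with hG
  have hGsum : HasSum (fun T => gwWeight d (n + 1) T * G T) (GW.pois d 2 * (M * X)) := by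
    refine GW.hasSum_of_fibres_nonneg hd n G (fun T => ?_)
      (fun k => if k = 2 then M * X else 0) _ (fun k => ?_) ?_
    · simp only [hG]
      split_ifs
      · exact Finset.prod_nonneg fun c _ => by split_ifs <;> simp [hS0, pow_nonneg]
      · exact le_rfl
    · by_cases hk : k = 2
      · subst hk
        have := GW.hasSum_fibre_prod d n 2 (fun c T => if (c : ℕ) = 0 then S T ^ F.m else S T)
          (fun c => if (c : ℕ) = 0 then M else X) fun c => by
            by_cases hc : (c : ℕ) = 0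
            · simpa [hc] using hM
            · simpa [hc] using hXsum
        simpa [hG, Fin.prod_univ_two] using this
      · simp [hG, hk, hasSum_zero]
    · have e : (fun k => GW.pois d k * if k = 2 then M * X else 0) =
          fun k => if k = 2 then GW.pois d 2 * (M * X) else 0 := by
        funext k; by_cases hk : k = 2 <;> simp [hk]
      rw [e]
      exact hasSum_ite_eq 2 _
  have hlin := GW.hasSum_children_sum hd n S hS0 X hXsum
  have hrhs := (hlin.mul_left (lam ^ 2)).sub (hGsum.mul_left (F.ε * (lam ^ 2) ^ (F.m + 1)))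
  have hle := hasSum_le (fun T => ?_) (F.hasSum_mean h0 h1 hd (n + 1)) hrhs
  · refine hle.trans ?_
    have hMX : X ^ F.m ≤ M := F.moment_ge h0 h1 hd n hM
    have hX0 : 0 ≤ X := F.mean_nonneg h0 h1 hd n
    have := mul_le_mul_of_nonneg_left (mul_le_mul_of_nonneg_right hMX hX0)
      (mul_nonneg (mul_nonneg F.ε_pos.le (pow_nonneg (sq_nonneg lam) (F.m + 1)))
        (GW.pois_nonneg hd 2))
    rw [pow_succ X F.m]
    linarith
  · have hw := GW.gwWeight_nonneg hd (n + 1) T
    obtain ⟨k, x⟩ := T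
    by_cases hk : k = 2
    · subst hk
      have h := mul_le_mul_of_nonneg_left (F.tree_two h0 h1 n x) hw
      refine h.trans (le_of_eq ?_)
      simp [hG, hS, Fin.prod_univ_two]
      ring
    · have h := mul_le_mul_of_nonneg_left (F.tree_sum h0 h1 n ⟨k, x⟩) hw
      refine h.trans (le_of_eq ?_)
      simp [hG, hS, hk]
      ring

theorem tendsto_mean (hd : 0 < d) (hle : d * lam ^ 2 ≤ 1) :
    Tendsto (F.mean h0 h1 d) atTop (𝓝 0) := by
  rcases h0.eq_or_lt with h | h
  · rw [← tendsto_add_atTop_iff_nat 1]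
    refine squeeze_zero (fun n => F.mean_nonneg h0 h1 hd.le _) (fun n => ?_) tendsto_const_nhds
    refine (F.mean_succ_le h0 h1 hd.le n).trans (le_of_eq ?_)
    simp [← h]
  · refine tendsto_zero_of_recursion (m := F.m)
      (c := F.ε * (lam ^ 2) ^ (F.m + 1) * GW.pois d 2) ?_ (F.mean_nonneg h0 h1 hd.le) fun n => ?_
    · have := F.ε_pos
      have : 0 < GW.pois d 2 := by unfold GW.pois; positivity
      positivity
    · refine (F.mean_succ_le h0 h1 hd.le n).trans ?_
      linarith [mul_le_of_le_one_left (F.mean_nonneg h0 h1 hd.le n) hle]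

end FerroData

/-- Nonreconstruction on Poisson Galton-Watson trees for ferromagnetic channels with a
certificate, given the identification of the advantage with the tree law. -/
theorem nonReconstructs_poisson_of_ferroCert {hq : 2 ≤ q} (hcert : FerroCert q hq) {lam d : ℝ}
    (h0 : 0 ≤ lam) (h1 : lam ≤ 1) (hd : 0 < d) (hle : d * lam ^ 2 ≤ 1)
    (hadv : ∀ (n : ℕ) (T : Tree n), advantage q lam n T =
      (treeLaw hq lam (lam_lower hq h0) h1 n T).E (fun u => (∑ i, |u i|) / (2 * q))) :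
    NonReconstructs (aPoisson q lam d) := by
  obtain ⟨F⟩ := hcert.data
  have hq' : (2 : ℝ) ≤ q := by exact_mod_cast hq
  have hnn : ∀ (n : ℕ) (T : Tree n), 0 ≤ advantage q lam n T := fun n T => by
    rw [hadv, ← (treeLaw hq lam (lam_lower hq h0) h1 n T).const 0]
    exact Law.mono _ _ _ fun u _ => by positivity
  have hbound : ∀ δ : ℝ, 0 < δ → ∀ n,
      aPoisson q lam d n ≤ δ / 4 + ((q : ℝ) - 1) / (4 * δ) * F.mean h0 h1 d n := by
    intro δ hδ n
    have hq1 : 0 ≤ ((q : ℝ) - 1) / (4 * δ) := div_nonneg (by linarith) (by positivity)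
    have hr := ((GW.hasSum_gwWeight hd.le n).mul_right (δ / 4)).add
      ((F.hasSum_mean h0 h1 hd.le n).mul_left (((q : ℝ) - 1) / (4 * δ)))
    rw [one_mul] at hr
    have hs : Summable fun T => gwWeight d n T * advantage q lam n T :=
      GW.summable_of_bounded hd.le n _ (δ / 4 + ((q : ℝ) - 1) / (4 * δ)) fun T => by
        rw [abs_of_nonneg (hnn n T), hadv]
        refine (Law.abs_test_le hq _ hδ).trans ?_
        have := mul_le_of_le_one_right hq1
          (Law.S_le_one hq (treeLaw hq lam (lam_lower hq h0) h1 n T))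
        linarith
    refine hasSum_le (fun T => ?_) hs.hasSum hr
    rw [hadv]
    refine (mul_le_mul_of_nonneg_left (Law.abs_test_le hq _ hδ)
      (GW.gwWeight_nonneg hd.le n T)).trans (le_of_eq ?_)
    ring
  show Tendsto _ atTop _
  rw [Metric.tendsto_atTop]
  intro e he
  have hq1 : (0 : ℝ) < ((q : ℝ) - 1) / (4 * e) := div_pos (by linarith) (by positivity)
  obtain ⟨N, hN⟩ := Metric.tendsto_atTop.1 (F.tendsto_mean h0 h1 hd hle)
    (e / 2 / (((q : ℝ) - 1) / (4 * e))) (by positivity)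
  refine ⟨N, fun n hn => ?_⟩
  have hge : 0 ≤ aPoisson q lam d n :=
    tsum_nonneg fun T => mul_nonneg (GW.gwWeight_nonneg hd.le n T) (hnn n T)
  rw [dist_zero_right, Real.norm_eq_abs, abs_of_nonneg hge]
  have hm := hN n hn
  rw [dist_zero_right, Real.norm_eq_abs, abs_of_nonneg (F.mean_nonneg h0 h1 hd.le n),
    lt_div_iff₀ hq1] at hm
  have := hbound e he n
  linarith [mul_comm (F.mean h0 h1 d n) (((q : ℝ) - 1) / (4 * e))]

end

end Vale.Agent.P154
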