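import Vale.Agent.P154.GW

/-!
The Kesten-Stigum direction: `d lam ^ 2 > 1` implies reconstruction, by a census argument.
-/

namespace Vale.Agent.P154.KS

variable {q : ℕ} {lam : ℝ}

theorem potts_nonneg (hq : 2 ≤ q) (h0 : -(1 / ((q : ℝ) - 1)) ≤ lam) (h1 : lam ≤ 1) (i j : Fin q) :
    0 ≤ potts q lam i j := by
  have hq2 : (2 : ℝ) ≤ q := by exact_mod_cast hq
  have hlam : -1 ≤ lam * ((q : ℝ) - 1) := by
    have := mul_le_mul_of_nonneg_right h0 (show (0 : ℝ) ≤ (q : ℝ) - 1 by linarith)
    rwa [neg_mul, one_div_mul_cancel (by linarith)] at this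
  unfold potts
  split_ifs
  · rw [mul_one, add_div' _ _ _ (by linarith : (q : ℝ) ≠ 0)]
    exact div_nonneg (by nlinarith) (by linarith)
  · rw [mul_zero, zero_add]
    exact div_nonneg (by linarith) (by linarith)

theorem sum_potts (hq : 2 ≤ q) (i : Fin q) : ∑ j, potts q lam i j = 1 := by
  have : (q : ℝ) ≠ 0 := by exact_mod_cast (by omega : q ≠ 0)
  simp [potts, Finset.sum_add_distrib, mul_ite]
  field_simp
  ring

theorem potts_symm (i j : Fin q) : potts q lam i j = potts q lam j i := by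
  simp only [potts, eq_comm (a := i)]

theorem sum_potts_col (hq : 2 ≤ q) (j : Fin q) : ∑ i, potts q lam i j = 1 := by
  simp only [potts_symm (j := j)]
  exact sum_potts hq j

theorem sum_potts_centred (hq : 2 ≤ q) (i a : Fin q) :
    ∑ j, potts q lam i j * ((if j = a then 1 else 0) - 1 / (q : ℝ)) =
      lam * ((if i = a then 1 else 0) - 1 / (q : ℝ)) := by
  simp only [mul_sub, Finset.sum_sub_distrib, mul_ite, mul_one, mul_zero, Finset.sum_ite_eq',
    Finset.mem_univ, if_true, ← Finset.sum_mul, sum_potts hq]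
  unfold potts
  split_ifs <;> ring

/-- The law of the spins below one child, given the parent's spin. -/
noncomputable def childW (lam : ℝ) (n : ℕ) (T : Tree n) (i : Fin q) (y : Leaf n T → Fin q) : ℝ :=
  ∑ j, potts q lam i j * lik lam n T j y

/-- Sums over level spins split over the children. -/
theorem sum_leaf_prod {n : ℕ} (T : Tree (n + 1))
    (g : (c : Fin T.1) → (Leaf n (T.2 c) → Fin q) → ℝ) :
    ∑ η : Leaf (n + 1) T → Fin q, ∏ c, g c (fun l => η ⟨c, l⟩) = ∏ c, ∑ y, g c y := by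
  rw [Fintype.prod_sum]
  let e : (Leaf (n + 1) T → Fin q) ≃ ((c : Fin T.1) → Leaf n (T.2 c) → Fin q) :=
    { toFun := fun η c l => η ⟨c, l⟩
      invFun := fun f x => f x.1 x.2
      left_inv := fun η => rfl
      right_inv := fun f => rfl }
  exact Fintype.sum_equiv e _ (fun f => ∏ c, g c (f c)) fun η => rfl

theorem lik_nonneg (hq : 2 ≤ q) (h0 : -(1 / ((q : ℝ) - 1)) ≤ lam) (h1 : lam ≤ 1) :
    ∀ (n : ℕ) (T : Tree n) (i : Fin q) (η : Leaf n T → Fin q), 0 ≤ lik lam n T i η
  | 0, _, i, η => by simp only [lik]; split_ifs <;> norm_num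
  | n + 1, T, i, η => by
    simp only [lik]
    exact Finset.prod_nonneg fun c _ => Finset.sum_nonneg fun j _ =>
      mul_nonneg (potts_nonneg hq h0 h1 i j) (lik_nonneg hq h0 h1 n _ j _)

theorem sum_lik (hq : 2 ≤ q) : ∀ (n : ℕ) (T : Tree n) (i : Fin q),
    ∑ η : Leaf n T → Fin q, lik lam n T i η = 1
  | 0, T, i => by
    simp only [lik]
    rw [Finset.sum_eq_single (fun _ => i)]
    · simp
    · intro η _ hne
      rw [if_neg]
      intro h
      exact hne (funext fun u => by cases u; exact h)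
    · simp
  | n + 1, T, i => by
    have hc : ∀ c, ∑ y, childW lam n (T.2 c) i y = 1 := by
      intro c
      simp only [childW]
      rw [Finset.sum_comm]
      simp only [← Finset.mul_sum, sum_lik hq n, mul_one, sum_potts hq]
    simp only [lik]
    refine (sum_leaf_prod T fun c y => childW lam n (T.2 c) i y).trans ?_
    simp [hc]

theorem sum_childW (hq : 2 ≤ q) (n : ℕ) (T : Tree n) (i : Fin q) :
    ∑ y, childW lam n T i y = 1 := by
  simp only [childW]
  rw [Finset.sum_comm]
  simp only [← Finset.mul_sum, sum_lik hq n, mul_one, sum_potts hq]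

theorem evid_nonneg (hq : 2 ≤ q) (h0 : -(1 / ((q : ℝ) - 1)) ≤ lam) (h1 : lam ≤ 1) (n : ℕ)
    (T : Tree n) (η : Leaf n T → Fin q) : 0 ≤ evid lam n T η :=
  Finset.sum_nonneg fun i _ => mul_nonneg (by positivity) (lik_nonneg hq h0 h1 n T i η)

theorem sum_evid (hq : 2 ≤ q) (n : ℕ) (T : Tree n) :
    ∑ η : Leaf n T → Fin q, evid lam n T η = 1 := by
  have : (q : ℝ) ≠ 0 := by exact_mod_cast (by omega : q ≠ 0)
  simp only [evid]
  rw [Finset.sum_comm]
  simp [← Finset.mul_sum, sum_lik hq n, this]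

theorem lik_le_evid (hq : 2 ≤ q) (h0 : -(1 / ((q : ℝ) - 1)) ≤ lam) (h1 : lam ≤ 1) (n : ℕ)
    (T : Tree n) (η : Leaf n T → Fin q) (i : Fin q) :
    1 / (q : ℝ) * lik lam n T i η ≤ evid lam n T η :=
  Finset.single_le_sum (f := fun i => 1 / (q : ℝ) * lik lam n T i η)
    (fun j _ => mul_nonneg (by positivity) (lik_nonneg hq h0 h1 n T j η)) (Finset.mem_univ i)

theorem sum_posterior {n : ℕ} {T : Tree n} {η : Leaf n T → Fin q} (he : evid lam n T η ≠ 0) :
    ∑ i, posterior lam n T η i = 1 := by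
  simp only [posterior, ← Finset.sum_div]
  exact div_self he

theorem advantage_nonneg (hq : 2 ≤ q) (h0 : -(1 / ((q : ℝ) - 1)) ≤ lam) (h1 : lam ≤ 1) (n : ℕ)
    (T : Tree n) : 0 ≤ advantage q lam n T :=
  Finset.sum_nonneg fun η _ => mul_nonneg (evid_nonneg hq h0 h1 n T η)
    (mul_nonneg (by norm_num) (Finset.sum_nonneg fun i _ => abs_nonneg _))

theorem advantage_le_one (hq : 2 ≤ q) (h0 : -(1 / ((q : ℝ) - 1)) ≤ lam) (h1 : lam ≤ 1) (n : ℕ)
    (T : Tree n) : advantage q lam n T ≤ 1 := by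
  refine le_of_le_of_eq ?_ (sum_evid (lam := lam) hq n T)
  refine Finset.sum_le_sum fun η _ => ?_
  rcases eq_or_ne (evid lam n T η) 0 with he | he
  · simp [he]
  refine mul_le_of_le_one_right (evid_nonneg hq h0 h1 n T η) ?_
  have hb : ∀ i, |posterior lam n T η i - 1 / (q : ℝ)| ≤ posterior lam n T η i + 1 / (q : ℝ) := by
    intro i
    have hp : 0 ≤ posterior lam n T η i :=
      div_nonneg (mul_nonneg (by positivity) (lik_nonneg hq h0 h1 n T i η))
        (evid_nonneg hq h0 h1 n T η)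
    have hq0 : (0 : ℝ) ≤ 1 / (q : ℝ) := by positivity
    exact abs_le.2 ⟨by linarith, by linarith⟩
  have hs := Finset.sum_le_sum fun i (_ : i ∈ Finset.univ) => hb i
  have hqne : (q : ℝ) ≠ 0 := by exact_mod_cast (by omega : q ≠ 0)
  rw [Finset.sum_add_distrib, sum_posterior he, Finset.sum_const, Finset.card_univ,
    Fintype.card_fin, nsmul_eq_mul, mul_one_div_cancel hqne] at hs
  linarith

/-- The census statistic. -/
noncomputable def census (n : ℕ) (T : Tree n) (a : Fin q) (η : Leaf n T → Fin q) : ℝ :=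
  ∑ l, ((if η l = a then 1 else 0) - 1 / (q : ℝ))

/-- The number of leaves. -/
noncomputable def size (n : ℕ) (T : Tree n) : ℕ := Fintype.card (Leaf n T)

theorem size_zero (T : Tree 0) : size 0 T = 1 := rfl

theorem size_succ {n : ℕ} (T : Tree (n + 1)) : size (n + 1) T = ∑ c, size n (T.2 c) :=
  Fintype.card_sigma

theorem census_succ {n : ℕ} (T : Tree (n + 1)) (a : Fin q) (η : Leaf (n + 1) T → Fin q) :
    census (n + 1) T a η = ∑ c, census n (T.2 c) a (fun l => η ⟨c, l⟩) :=
  Fintype.sum_sigma _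

theorem sum_lik_child (hq : 2 ≤ q) {n : ℕ} (T : Tree (n + 1)) (i : Fin q)
    (G : (c : Fin T.1) → (Leaf n (T.2 c) → Fin q) → ℝ) (c0 : Fin T.1) :
    ∑ η : Leaf (n + 1) T → Fin q, lik lam (n + 1) T i η * G c0 (fun l => η ⟨c0, l⟩) =
      ∑ y, childW lam n (T.2 c0) i y * G c0 y := by
  have h := sum_leaf_prod T fun c y => childW lam n (T.2 c) i y * (if c = c0 then G c y else 1)
  simp only [Finset.prod_mul_distrib, Finset.prod_ite_eq', Finset.mem_univ, if_true] at h
  refine Eq.trans ?_ (h.trans ?_)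
  · rfl
  · rw [Finset.prod_eq_single c0]
    · simp
    · intro c _ hc
      simp [hc, sum_childW hq]
    · simp

theorem sum_lik_two (hq : 2 ≤ q) {n : ℕ} (T : Tree (n + 1)) (i : Fin q)
    (G : (c : Fin T.1) → (Leaf n (T.2 c) → Fin q) → ℝ) {c0 c1 : Fin T.1} (hne : c0 ≠ c1) :
    ∑ η : Leaf (n + 1) T → Fin q,
        lik lam (n + 1) T i η * (G c0 (fun l => η ⟨c0, l⟩) * G c1 (fun l => η ⟨c1, l⟩)) =
      (∑ y, childW lam n (T.2 c0) i y * G c0 y) * ∑ y, childW lam n (T.2 c1) i y * G c1 y := by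
  have h := sum_leaf_prod T fun c y =>
    childW lam n (T.2 c) i y * ((if c = c0 then G c y else 1) * (if c = c1 then G c y else 1))
  simp only [Finset.prod_mul_distrib, Finset.prod_ite_eq', Finset.mem_univ, if_true] at h
  refine Eq.trans ?_ (h.trans ?_)
  · rfl
  · rw [Finset.prod_eq_mul c0 c1 hne]
    · simp [hne, hne.symm]
    · intro c _ hc
      simp [hc.1, hc.2, sum_childW hq]
    · simp
    · simp

theorem sum_lik_census (hq : 2 ≤ q) (a : Fin q) : ∀ (n : ℕ) (T : Tree n) (i : Fin q),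
    ∑ η : Leaf n T → Fin q, lik lam n T i η * census n T a η =
      lam ^ n * size n T * ((if i = a then 1 else 0) - 1 / (q : ℝ))
  | 0, T, i => by
    simp only [lik, census, size_zero, pow_zero, one_mul, Nat.cast_one]
    rw [Finset.sum_eq_single (fun _ => i)]
    · rw [if_pos rfl, one_mul]
      exact Fintype.sum_unique (ι := Unit) _
    · intro η _ hne
      rw [if_neg, zero_mul]
      intro h
      exact hne (funext fun u => by cases u; exact h)
    · simp
  | n + 1, T, i => by
    simp only [census_succ, Finset.mul_sum]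
    rw [Finset.sum_comm, size_succ, Nat.cast_sum, Finset.mul_sum, Finset.sum_mul]
    refine Finset.sum_congr rfl fun c _ => ?_
    rw [sum_lik_child hq T i (fun c y => census n (T.2 c) a y) c]
    simp only [childW, Finset.sum_mul]
    rw [Finset.sum_comm]
    simp only [mul_assoc, ← Finset.mul_sum, sum_lik_census hq a n]
    calc ∑ j, potts q lam i j * (lam ^ n * ((size n (T.2 c) : ℝ) *
          ((if j = a then 1 else 0) - 1 / (q : ℝ))))
        = lam ^ n * (size n (T.2 c) : ℝ) *
            ∑ j, potts q lam i j * ((if j = a then 1 else 0) - 1 / (q : ℝ)) := by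
          rw [Finset.mul_sum]; exact Finset.sum_congr rfl fun j _ => by ring
      _ = _ := by rw [sum_potts_centred hq, pow_succ]; ring

theorem sq_sum_split {ι : Type*} [Fintype ι] [DecidableEq ι] (f : ι → ℝ) :
    (∑ c, f c) ^ 2 =
      (∑ c, f c * f c) + ∑ p ∈ (Finset.univ : Finset ι).offDiag, f p.1 * f p.2 := by
  rw [sq, Finset.sum_mul_sum, ← Finset.sum_product', ← Finset.diag_union_offDiag,
    Finset.sum_union (Finset.disjoint_diag_offDiag _), Finset.sum_diag]

theorem sum_centred (hq : 2 ≤ q) (a : Fin q) :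
    ∑ i : Fin q, ((if i = a then (1 : ℝ) else 0) - 1 / (q : ℝ)) = 0 := by
  have hqne : (q : ℝ) ≠ 0 := by exact_mod_cast (by omega : q ≠ 0)
  simp only [Finset.sum_sub_distrib, Finset.sum_ite_eq', Finset.mem_univ, if_true,
    Finset.sum_const, Finset.card_univ, Fintype.card_fin, nsmul_eq_mul, mul_one_div_cancel hqne,
    sub_self]

/-- The second moment of the census. -/
noncomputable def second (lam : ℝ) (n : ℕ) (T : Tree n) (a : Fin q) : ℝ :=
  ∑ η : Leaf n T → Fin q, evid lam n T η * census n T a η ^ 2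

theorem second_nonneg (hq : 2 ≤ q) (h0 : -(1 / ((q : ℝ) - 1)) ≤ lam) (h1 : lam ≤ 1) (n : ℕ)
    (T : Tree n) (a : Fin q) : 0 ≤ second lam n T a :=
  Finset.sum_nonneg fun η _ => mul_nonneg (evid_nonneg hq h0 h1 n T η) (sq_nonneg _)

theorem sum_centred_sq (hq : 2 ≤ q) (a : Fin q) :
    ∑ i : Fin q, 1 / (q : ℝ) * ((if i = a then 1 else 0) - 1 / (q : ℝ)) ^ 2 =
      ((q : ℝ) - 1) / (q : ℝ) ^ 2 := by
  have hqne : (q : ℝ) ≠ 0 := by exact_mod_cast (by omega : q ≠ 0)
  have h : ∀ i : Fin q, ((if i = a then (1 : ℝ) else 0) - 1 / (q : ℝ)) ^ 2 =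
      (if i = a then 1 - 2 / (q : ℝ) else 0) + (1 / (q : ℝ)) ^ 2 := by
    intro i; split_ifs <;> ring
  simp only [← Finset.mul_sum, h, Finset.sum_add_distrib, Finset.sum_ite_eq', Finset.mem_univ,
    if_true, Finset.sum_const, Finset.card_univ, Fintype.card_fin, nsmul_eq_mul]
  field_simp
  ring

theorem second_eq (lam : ℝ) (n : ℕ) (T : Tree n) (a : Fin q) :
    second lam n T a =
      ∑ i, 1 / (q : ℝ) * ∑ η : Leaf n T → Fin q, lik lam n T i η * census n T a η ^ 2 := by
  simp only [second, evid, Finset.sum_mul, Finset.mul_sum]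
  rw [Finset.sum_comm]
  exact Finset.sum_congr rfl fun i _ => Finset.sum_congr rfl fun η _ => mul_assoc _ _ _

theorem second_zero (hq : 2 ≤ q) (T : Tree 0) (a : Fin q) :
    second lam 0 T a = ((q : ℝ) - 1) / (q : ℝ) ^ 2 := by
  rw [second_eq, ← sum_centred_sq hq a]
  refine Finset.sum_congr rfl fun i _ => ?_
  congr 1
  rw [Finset.sum_eq_single (fun _ => i)]
  · simp only [lik, if_true, one_mul, census]
    congr 1
    exact Fintype.sum_unique (ι := Unit) _
  · intro η _ hne
    simp only [lik]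
    rw [if_neg, zero_mul]
    intro h
    exact hne (funext fun u => by cases u; exact h)
  · simp

theorem second_succ (hq : 2 ≤ q) {n : ℕ} (T : Tree (n + 1)) (a : Fin q) :
    second lam (n + 1) T a = (∑ c, second lam n (T.2 c) a) +
      ((q : ℝ) - 1) / (q : ℝ) ^ 2 * (lam ^ 2) ^ (n + 1) *
        ∑ p ∈ (Finset.univ : Finset (Fin T.1)).offDiag,
          (size n (T.2 p.1) : ℝ) * (size n (T.2 p.2) : ℝ) := by
  have hm : ∀ (c : Fin T.1) (i : Fin q),
      ∑ y, childW lam n (T.2 c) i y * census n (T.2 c) a y =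
        lam ^ (n + 1) * (size n (T.2 c) : ℝ) * ((if i = a then 1 else 0) - 1 / (q : ℝ)) := by
    intro c i
    simp only [childW, Finset.sum_mul]
    rw [Finset.sum_comm]
    simp only [mul_assoc, ← Finset.mul_sum, sum_lik_census hq a n]
    calc ∑ j, potts q lam i j * (lam ^ n * ((size n (T.2 c) : ℝ) *
          ((if j = a then 1 else 0) - 1 / (q : ℝ))))
        = lam ^ n * (size n (T.2 c) : ℝ) *
            ∑ j, potts q lam i j * ((if j = a then 1 else 0) - 1 / (q : ℝ)) := by
          rw [Finset.mul_sum]; exact Finset.sum_congr rfl fun j _ => by ring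
      _ = _ := by rw [sum_potts_centred hq, pow_succ]; ring
  have hi : ∀ i, ∑ η : Leaf (n + 1) T → Fin q,
      lik lam (n + 1) T i η * census (n + 1) T a η ^ 2 =
      (∑ c, ∑ j, potts q lam i j *
          ∑ y, lik lam n (T.2 c) j y * census n (T.2 c) a y ^ 2) +
        (lam ^ 2) ^ (n + 1) * ((if i = a then 1 else 0) - 1 / (q : ℝ)) ^ 2 *
          ∑ p ∈ (Finset.univ : Finset (Fin T.1)).offDiag,
            (size n (T.2 p.1) : ℝ) * (size n (T.2 p.2) : ℝ) := by
    intro i
    simp only [census_succ, sq_sum_split, mul_add, Finset.sum_add_distrib, Finset.mul_sum]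
    congr 1
    · rw [Finset.sum_comm]
      refine Finset.sum_congr rfl fun c _ => ?_
      rw [sum_lik_child hq T i (fun c y => census n (T.2 c) a y * census n (T.2 c) a y) c]
      simp only [childW, Finset.sum_mul]
      rw [Finset.sum_comm]
      exact Finset.sum_congr rfl fun j _ => Finset.sum_congr rfl fun y _ => by ring
    · rw [Finset.sum_comm]
      refine Finset.sum_congr rfl fun p hp => ?_
      rw [sum_lik_two hq T i (fun c y => census n (T.2 c) a y) (Finset.mem_offDiag.1 hp).2.2,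
        hm, hm, ← pow_mul, mul_comm 2 (n + 1), pow_mul]
      ring
  rw [second_eq]
  simp only [hi, mul_add, Finset.sum_add_distrib]
  congr 1
  · rw [Finset.sum_congr rfl fun i _ => Finset.mul_sum _ _ _, Finset.sum_comm]
    refine Finset.sum_congr rfl fun c _ => ?_
    rw [second_eq, ← Finset.mul_sum, Finset.sum_comm, ← Finset.mul_sum]
    congr 1
    refine Finset.sum_congr rfl fun j _ => ?_
    rw [← Finset.sum_mul, sum_potts_col hq, one_mul]
  · rw [← sum_centred_sq hq a]
    simp only [Finset.sum_mul]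
    exact Finset.sum_congr rfl fun i _ => by ring

/-- The census is correlated with the root, hence the posterior is biased. -/
theorem census_bound (hq : 2 ≤ q) (h0 : -(1 / ((q : ℝ) - 1)) ≤ lam) (h1 : lam ≤ 1) (n : ℕ)
    (T : Tree n) (a : Fin q) {t : ℝ} (ht : 0 < t) :
    ((q : ℝ) - 1) / (q : ℝ) ^ 2 * (|lam| ^ n * (size n T : ℝ)) ≤
      t / 2 * advantage q lam n T + second lam n T a / (2 * t) := by
  have hq2 : (2 : ℝ) ≤ q := by exact_mod_cast hq
  set δ : (Leaf n T → Fin q) → ℝ := fun η => posterior lam n T η a - 1 / (q : ℝ) with hδ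
  have hmean : ∑ η, evid lam n T η * census n T a η = 0 := by
    simp only [evid, Finset.sum_mul, mul_assoc]
    rw [Finset.sum_comm]
    simp only [← Finset.mul_sum, sum_lik_census hq a n]
    simp only [← Finset.mul_sum, sum_centred hq a, mul_zero]
  have hkey : ∑ η, evid lam n T η * (δ η * census n T a η) =
      ((q : ℝ) - 1) / (q : ℝ) ^ 2 * (lam ^ n * (size n T : ℝ)) := by
    have h : ∀ η, evid lam n T η * (δ η * census n T a η) =
        1 / (q : ℝ) * (lik lam n T a η * census n T a η) -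
          1 / (q : ℝ) * (evid lam n T η * census n T a η) := by
      intro η
      rcases eq_or_ne (evid lam n T η) 0 with he | he
      · have hl := lik_le_evid hq h0 h1 n T η a
        have hl0 := lik_nonneg hq h0 h1 n T a η
        have hqi : (0 : ℝ) < 1 / (q : ℝ) := by positivity
        have : lik lam n T a η = 0 := by nlinarith
        simp [he, this]
      · simp only [hδ, posterior]
        field_simp
    simp only [h, Finset.sum_sub_distrib, ← Finset.mul_sum, hmean, sum_lik_census hq a n,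
      if_true]
    field_simp
    ring
  have habs : ((q : ℝ) - 1) / (q : ℝ) ^ 2 * (|lam| ^ n * (size n T : ℝ)) =
      |∑ η, evid lam n T η * (δ η * census n T a η)| := by
    rw [hkey, abs_mul, abs_mul, abs_pow, Nat.abs_cast,
      abs_of_nonneg (div_nonneg (by linarith : (0 : ℝ) ≤ (q : ℝ) - 1) (sq_nonneg (q : ℝ)))]
  rw [habs]
  refine (Finset.abs_sum_le_sum_abs _ _).trans ?_
  rw [advantage, second, Finset.mul_sum, Finset.sum_div, ← Finset.sum_add_distrib]
  refine Finset.sum_le_sum fun η _ => ?_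
  have he0 := evid_nonneg hq h0 h1 n T η
  rw [abs_mul, abs_of_nonneg he0]
  rcases eq_or_ne (evid lam n T η) 0 with he | he
  · simp [he]
  have hp0 : 0 ≤ posterior lam n T η a :=
    div_nonneg (mul_nonneg (by positivity) (lik_nonneg hq h0 h1 n T a η)) he0
  have hp1 : posterior lam n T η a ≤ 1 :=
    div_le_one_of_le₀ (lik_le_evid hq h0 h1 n T η a) he0
  have hd1 : |δ η| ≤ 1 := by
    rw [hδ, abs_le]
    have : (0 : ℝ) ≤ 1 / (q : ℝ) ∧ 1 / (q : ℝ) ≤ 1 :=
      ⟨by positivity, by rw [div_le_one (by linarith)]; linarith⟩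
    constructor <;> linarith
  have hhalf : |δ η| ≤ 1 / 2 * ∑ i, |posterior lam n T η i - 1 / (q : ℝ)| := by
    have hz : ∑ i, (posterior lam n T η i - 1 / (q : ℝ)) = 0 := by
      rw [Finset.sum_sub_distrib, sum_posterior he]
      simp
      field_simp
      ring
    rw [← Finset.add_sum_erase _ _ (Finset.mem_univ a)] at hz
    rw [← Finset.add_sum_erase _ _ (Finset.mem_univ a)]
    have h2 : |δ η| ≤ ∑ i ∈ Finset.univ.erase a, |posterior lam n T η i - 1 / (q : ℝ)| := by
      refine le_trans (le_of_eq ?_) (Finset.abs_sum_le_sum_abs _ _)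
      simp only [hδ]
      rw [eq_neg_of_add_eq_zero_left hz, abs_neg]
    simp only [hδ] at h2 ⊢
    linarith
  have hamgm : |δ η * census n T a η| ≤
      t / 2 * |δ η| + census n T a η ^ 2 / (2 * t) := by
    rw [abs_mul, ← sub_nonneg]
    have e : t / 2 * |δ η| + census n T a η ^ 2 / (2 * t) - |δ η| * |census n T a η| =
        (t * |δ η| * (1 - |δ η|) + (|census n T a η| - t * |δ η|) ^ 2 / t) / 2 := by
      rw [← sq_abs (census n T a η)]
      field_simp
      ring
    rw [e]
    have : 0 ≤ t * |δ η| * (1 - |δ η|) := by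
      have := sub_nonneg.2 hd1
      positivity
    positivity
  calc evid lam n T η * |δ η * census n T a η|
      ≤ evid lam n T η * (t / 2 * (1 / 2 * ∑ i, |posterior lam n T η i - 1 / (q : ℝ)|) +
          census n T a η ^ 2 / (2 * t)) := by
        refine mul_le_mul_of_nonneg_left (hamgm.trans ?_) he0
        gcongr
    _ = _ := by ring

/-- From the moment bounds to a lower bound on the advantage. -/
theorem eps_le {c A M a S t : ℝ} (hc : 0 < c) (hA : 0 < A) (hM : 0 < M) (ht : t = A * M / c)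
    (h : c * M ≤ t / 2 * a + S / (2 * t)) (hS : S ≤ A * M ^ 2) : c ^ 2 / A ≤ a := by
  have htpos : 0 < t := by rw [ht]; positivity
  have h2 : S / (2 * t) ≤ A * M ^ 2 / (2 * t) :=
    div_le_div_of_nonneg_right hS (by positivity)
  have e : A * M ^ 2 / (2 * t) = c * M / 2 := by rw [ht]; field_simp
  have h3 : c * M / 2 ≤ t / 2 * a := by linarith
  rw [ht] at h3
  have h4 : c * M ≤ A * M / c * a := by linarith
  rw [div_mul_eq_mul_div, le_div_iff₀ hc] at h4
  rw [div_le_iff₀ hA]
  nlinarith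

theorem growth {d : ℝ} (hlam : 1 < d * lam ^ 2) (hd : 0 < d) {c : ℝ} (hc : 0 < c) :
    ∃ A : ℝ, 0 < A ∧ c ≤ A ∧ d * A + c * lam ^ 2 * d ^ 2 = A * (d ^ 2 * lam ^ 2) := by
  have h1 : 0 < d ^ 2 * lam ^ 2 - d := by nlinarith
  have h2 : 0 < d ^ 2 * lam ^ 2 := by linarith
  refine ⟨c * (d ^ 2 * lam ^ 2) / (d ^ 2 * lam ^ 2 - d), by positivity, ?_, ?_⟩
  · rw [le_div_iff₀ h1]
    exact mul_le_mul_of_nonneg_left (by linarith) hc.le
  · have e := div_mul_cancel₀ (c * (d ^ 2 * lam ^ 2)) h1.ne'
    linear_combination -e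

theorem size_regular (d : ℕ) : ∀ n, size n (regular d n) = d ^ n
  | 0 => rfl
  | n + 1 => by
    rw [size_succ]
    change ∑ _c : Fin d, size n (regular d n) = _
    rw [size_regular d n, Finset.sum_const, Finset.card_univ, Fintype.card_fin, smul_eq_mul,
      pow_succ']

/-- Kesten-Stigum on regular trees. -/
theorem ks_regular (hq : 2 ≤ q) (h0 : -(1 / ((q : ℝ) - 1)) ≤ lam) (h1 : lam ≤ 1) (d : ℕ)
    (hd : 1 < (d : ℝ) * lam ^ 2) : Reconstructs (aRegular q lam d) := by
  have hd0 : (0 : ℝ) < d := by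
    rcases (Nat.cast_nonneg (α := ℝ) d).lt_or_eq with h | h
    · exact h
    · exfalso; rw [← h, zero_mul] at hd; linarith
  have hl0 : lam ≠ 0 := by rintro rfl; simp at hd; linarith
  let a : Fin q := ⟨0, by omega⟩
  set c : ℝ := ((q : ℝ) - 1) / (q : ℝ) ^ 2 with hc
  have hq2 : (2 : ℝ) ≤ q := by exact_mod_cast hq
  have hc0 : 0 < c := div_pos (by linarith) (by positivity)
  obtain ⟨A, hA0, hcA, hA⟩ := growth hd hd0 hc0
  have hS : ∀ n, second lam n (regular d n) a ≤ A * ((d : ℝ) ^ 2 * lam ^ 2) ^ n := by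
    intro n
    induction n with
    | zero => rw [second_zero hq, pow_zero, mul_one]; exact hcA
    | succ n ih =>
      rw [second_succ hq]
      change (∑ _c : Fin d, second lam n (regular d n) a) + c * (lam ^ 2) ^ (n + 1) *
        (∑ _p ∈ (Finset.univ : Finset (Fin d)).offDiag,
          (size n (regular d n) : ℝ) * (size n (regular d n) : ℝ)) ≤ _
      simp only [size_regular, Finset.sum_const, Finset.card_univ, Fintype.card_fin,
        Finset.offDiag_card, nsmul_eq_mul]
      push_cast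
      have hdd : ((d * d - d : ℕ) : ℝ) ≤ (d : ℝ) * d := by
        exact_mod_cast Nat.sub_le _ _
      calc (d : ℝ) * second lam n (regular d n) a +
            c * (lam ^ 2) ^ (n + 1) * (((d * d - d : ℕ) : ℝ) * ((d : ℝ) ^ n * (d : ℝ) ^ n))
          ≤ (d : ℝ) * (A * ((d : ℝ) ^ 2 * lam ^ 2) ^ n) +
            c * (lam ^ 2) ^ (n + 1) * ((d : ℝ) * d * ((d : ℝ) ^ n * (d : ℝ) ^ n)) := by gcongr
        _ = ((d : ℝ) * A + c * lam ^ 2 * (d : ℝ) ^ 2) * ((d : ℝ) ^ 2 * lam ^ 2) ^ n := by
            simp only [mul_pow, pow_succ, pow_zero, one_mul]; ring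
        _ = A * ((d : ℝ) ^ 2 * lam ^ 2) ^ (n + 1) := by rw [hA, pow_succ]; ring
  refine ⟨c ^ 2 / A, by positivity, fun n => ?_⟩
  set M := (|lam| * d) ^ n with hM
  have hM0 : 0 < M := by
    have := abs_pos.2 hl0
    positivity
  have ht : 0 < A * M / c := by positivity
  refine eps_le hc0 hA0 hM0 rfl (le_trans (le_of_eq ?_)
    (census_bound hq h0 h1 n (regular d n) a ht)) (le_trans (hS n) (le_of_eq ?_))
  · rw [hM, size_regular, mul_pow]; push_cast; ring
  · rw [hM, ← pow_mul, mul_comm n 2, pow_mul, mul_pow |lam|, sq_abs]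
    ring

theorem hasSum_size {d : ℝ} (hd : 0 ≤ d) :
    ∀ n, HasSum (fun T => gwWeight d n T * (size n T : ℝ)) (d ^ n)
  | 0 => by
    simpa [size_zero] using GW.hasSum_gwWeight hd 0
  | n + 1 => by
    rw [pow_succ']
    have := GW.hasSum_children_sum hd n (fun T => (size n T : ℝ)) (fun T => Nat.cast_nonneg _) _
      (hasSum_size hd n)
    simpa [size_succ] using this

/-- Kesten-Stigum on Poisson Galton-Watson trees. -/
theorem ks_poisson (hq : 2 ≤ q) (h0 : -(1 / ((q : ℝ) - 1)) ≤ lam) (h1 : lam ≤ 1) (d : ℝ)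
    (hd0 : 0 < d) (hd : 1 < d * lam ^ 2) : Reconstructs (aPoisson q lam d) := by
  have hl0 : lam ≠ 0 := by rintro rfl; simp at hd; linarith
  let a : Fin q := ⟨0, by omega⟩
  set c : ℝ := ((q : ℝ) - 1) / (q : ℝ) ^ 2 with hc
  have hq2 : (2 : ℝ) ≤ q := by exact_mod_cast hq
  have hc0 : 0 < c := div_pos (by linarith) (by positivity)
  obtain ⟨A, hA0, hcA, hA⟩ := growth hd hd0 hc0
  have hS : ∀ n, ∃ S, HasSum (fun T => gwWeight d n T * second lam n T a) S ∧
      S ≤ A * (d ^ 2 * lam ^ 2) ^ n := by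
    intro n
    induction n with
    | zero =>
      refine ⟨c, ?_, by simpa using hcA⟩
      simpa [second_zero hq] using (GW.hasSum_gwWeight hd0.le 0).mul_right c
    | succ n ih =>
      obtain ⟨S, hS, hle⟩ := ih
      have e1 := GW.hasSum_children_sum hd0.le n (fun T => second lam n T a)
        (fun T => second_nonneg hq h0 h1 n T a) S hS
      have e2 := (GW.hasSum_children_pairs hd0.le n (fun T => (size n T : ℝ))
        (fun T => Nat.cast_nonneg _) _ (hasSum_size hd0.le n)).mul_left (c * (lam ^ 2) ^ (n + 1))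
      refine ⟨_, (e1.add e2).congr_fun fun T => ?_, ?_⟩
      · rw [second_succ hq]; ring
      · calc d * S + c * (lam ^ 2) ^ (n + 1) * (d ^ 2 * (d ^ n) ^ 2)
            ≤ d * (A * (d ^ 2 * lam ^ 2) ^ n) +
              c * (lam ^ 2) ^ (n + 1) * (d ^ 2 * (d ^ n) ^ 2) := by gcongr
          _ = (d * A + c * lam ^ 2 * d ^ 2) * (d ^ 2 * lam ^ 2) ^ n := by
              simp only [mul_pow, pow_succ, pow_zero, one_mul]; ring
          _ = A * (d ^ 2 * lam ^ 2) ^ (n + 1) := by rw [hA, pow_succ]; ring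
  refine ⟨c ^ 2 / A, by positivity, fun n => ?_⟩
  obtain ⟨S, hSn, hle⟩ := hS n
  set M := (|lam| * d) ^ n with hM
  have hM0 : 0 < M := by
    have := abs_pos.2 hl0
    positivity
  have ht : 0 < A * M / c := by positivity
  have hadv : Summable fun T => gwWeight d n T * advantage q lam n T :=
    GW.summable_of_bounded hd0.le n _ 1 fun T => by
      rw [abs_of_nonneg (advantage_nonneg hq h0 h1 n T)]
      exact advantage_le_one hq h0 h1 n T
  have hleft := (hasSum_size (d := d) hd0.le n).mul_left (c * |lam| ^ n)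
  have hright := (hadv.hasSum.mul_left (A * M / c / 2)).add (hSn.div_const (2 * (A * M / c)))
  refine eps_le hc0 hA0 hM0 rfl (le_trans (le_of_eq ?_) (hasSum_le (fun T => ?_) hleft hright))
    (le_trans hle (le_of_eq ?_))
  · rw [hM, mul_pow]; ring
  · have hb := mul_le_mul_of_nonneg_left (census_bound hq h0 h1 n T a ht)
      (GW.gwWeight_nonneg hd0.le n T)
    calc c * |lam| ^ n * (gwWeight d n T * (size n T : ℝ))
        = gwWeight d n T * (c * (|lam| ^ n * (size n T : ℝ))) := by ring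
      _ ≤ _ := hb
      _ = _ := by ring
  · rw [hM, ← pow_mul, mul_comm n 2, pow_mul, mul_pow |lam|, sq_abs]
    ring

end Vale.Agent.P154.KS
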