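import Vale.Agent.P154.Ferro3.Cert
import Mathlib.Data.Fin.VecNotation
import Mathlib.Algebra.BigOperators.Fin
import Mathlib.Data.Fintype.Perm
import Mathlib.Tactic.FinCases

/-!
Pointwise inequalities for three-state posteriors behind nonreconstruction of the ferromagnetic
three-state Potts channel.

An unnormalised posterior is `a : Fin 3 → ℝ`, `0 ≤ a`, with weight `mass a`; it stands for the
normalised likelihood ratio `r = a / mass a`, so `u = r - 1` sums to zero.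
-/

namespace Vale.Agent.P154.Class3

open Ferro3

noncomputable section

/-- The weight of an unnormalised posterior. -/
def mass (a : Fin 3 → ℝ) : ℝ := (a 0 + a 1 + a 2) / 3

/-- Weighted squared deviation: `mass a * s (a / mass a)`, `s = ∑ u² / 6`. -/
def dev (a : Fin 3 → ℝ) : ℝ :=
  ((a 0 - mass a) ^ 2 + (a 1 - mass a) ^ 2 + (a 2 - mass a) ^ 2) / (6 * mass a)

/-- The second symmetric function. -/
def pairs (a : Fin 3 → ℝ) : ℝ := a 0 * a 1 + a 0 * a 2 + a 1 * a 2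

/-- Weighted class function: `mass a * h (a / mass a)`, where `h = (c - s²) / (1 - s)`,
`c = ∑ u³ / 6`, with value `1/2` at the three extreme points. -/
def cls (a : Fin 3 → ℝ) : ℝ :=
  dev a - mass a / 2 + 3 / 2 * (a 0 * a 1 * a 2) / pairs a

/-- Combination of two posteriors, the second one permuted. -/
def comb (r r' : Fin 3 → ℝ) (i j k : Fin 3) : Fin 3 → ℝ := ![r 0 * r' i, r 1 * r' j, r 2 * r' k]

/-- Average over the six relative permutations. -/
def avg6 (F : (Fin 3 → ℝ) → ℝ) (r r' : Fin 3 → ℝ) : ℝ :=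
  (F (comb r r' 0 1 2) + F (comb r r' 1 2 0) + F (comb r r' 2 0 1) +
    F (comb r r' 0 2 1) + F (comb r r' 2 1 0) + F (comb r r' 1 0 2)) / 6

/-- The channel with eigenvalue `lam` acting on normalised posteriors. -/
def shrink (lam : ℝ) (r : Fin 3 → ℝ) : Fin 3 → ℝ := fun i => 1 + lam * (r i - 1)

/-- A normalised posterior. -/
structure IsPost (r : Fin 3 → ℝ) : Prop where
  nonneg : ∀ i, 0 ≤ r i
  sum_eq : r 0 + r 1 + r 2 = 3

theorem avg6_eq_sum_perm (F : (Fin 3 → ℝ) → ℝ) (r r' : Fin 3 → ℝ) :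
    avg6 F r r' = (∑ σ : Equiv.Perm (Fin 3), F fun i => r i * r' (σ i)) / 6 := by
  have h : (Finset.univ : Finset (Equiv.Perm (Fin 3))) =
      {1, finRotate 3, (finRotate 3)⁻¹, Equiv.swap 1 2, Equiv.swap 0 2, Equiv.swap 0 1} := by
    decide
  have e : ∀ σ : Equiv.Perm (Fin 3),
      (fun i => r i * r' (σ i)) = comb r r' (σ 0) (σ 1) (σ 2) := fun σ => by
    funext i
    fin_cases i <;> simp [comb]
  rw [h, Finset.sum_insert (by decide), Finset.sum_insert (by decide),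
    Finset.sum_insert (by decide), Finset.sum_insert (by decide), Finset.sum_insert (by decide),
    Finset.sum_singleton]
  simp only [e]
  have h1 : ((1 : Equiv.Perm (Fin 3)) 0 = 0) ∧ ((1 : Equiv.Perm (Fin 3)) 1 = 1) ∧
      ((1 : Equiv.Perm (Fin 3)) 2 = 2) := by decide
  have h2 : (finRotate 3 0 = 1) ∧ (finRotate 3 1 = 2) ∧ (finRotate 3 2 = 0) := by decide
  have h3 : ((finRotate 3)⁻¹ 0 = 2) ∧ ((finRotate 3)⁻¹ 1 = 0) ∧ ((finRotate 3)⁻¹ 2 = 1) := by
    decide
  have h4 : (Equiv.swap (1 : Fin 3) 2 0 = 0) ∧ (Equiv.swap (1 : Fin 3) 2 1 = 2) ∧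
      (Equiv.swap (1 : Fin 3) 2 2 = 1) := by decide
  have h5 : (Equiv.swap (0 : Fin 3) 2 0 = 2) ∧ (Equiv.swap (0 : Fin 3) 2 1 = 1) ∧
      (Equiv.swap (0 : Fin 3) 2 2 = 0) := by decide
  have h6 : (Equiv.swap (0 : Fin 3) 1 0 = 1) ∧ (Equiv.swap (0 : Fin 3) 1 1 = 0) ∧
      (Equiv.swap (0 : Fin 3) 1 2 = 2) := by decide
  simp only [h1, h2, h3, h4, h5, h6, avg6]
  ring

theorem comb_nonneg {r r' : Fin 3 → ℝ} (hr : IsPost r) (hr' : IsPost r') (i j k : Fin 3) :
    ∀ x, 0 ≤ comb r r' i j k x := by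
  intro x
  fin_cases x <;> simp [comb, mul_nonneg, hr.nonneg, hr'.nonneg]

theorem mass_of_post {r : Fin 3 → ℝ} (hr : IsPost r) : mass r = 1 := by
  rw [mass, hr.sum_eq]; norm_num

theorem mass_nonneg {a : Fin 3 → ℝ} (ha : ∀ i, 0 ≤ a i) : 0 ≤ mass a := by
  have := ha 0; have := ha 1; have := ha 2
  unfold mass; positivity

theorem eq_zero_of_mass {a : Fin 3 → ℝ} (ha : ∀ i, 0 ≤ a i) (h : mass a = 0) :
    a 0 = 0 ∧ a 1 = 0 ∧ a 2 = 0 := by
  have := ha 0; have := ha 1; have := ha 2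
  unfold mass at h
  refine ⟨?_, ?_, ?_⟩ <;> linarith

theorem dev_nonneg {a : Fin 3 → ℝ} (ha : ∀ i, 0 ≤ a i) : 0 ≤ dev a := by
  have := mass_nonneg ha
  unfold dev; positivity

theorem pairs_nonneg {a : Fin 3 → ℝ} (ha : ∀ i, 0 ≤ a i) : 0 ≤ pairs a := by
  have := ha 0; have := ha 1; have := ha 2
  unfold pairs; positivity

theorem dev_sub_half_le_cls {a : Fin 3 → ℝ} (ha : ∀ i, 0 ≤ a i) : dev a - mass a / 2 ≤ cls a := by
  have := ha 0; have := ha 1; have := ha 2; have := pairs_nonneg ha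
  have : 0 ≤ 3 / 2 * (a 0 * a 1 * a 2) / pairs a := by positivity
  unfold cls; linarith

/-- Titu's inequality with an arbitrary test vector. -/
theorem dev_ge {a : Fin 3 → ℝ} (ha : ∀ i, 0 ≤ a i) (p q o : ℝ) :
    (2 * ((a 0 - mass a) * p + (a 1 - mass a) * q + (a 2 - mass a) * o)
      - mass a * (p ^ 2 + q ^ 2 + o ^ 2)) / 6 ≤ dev a := by
  rcases (mass_nonneg ha).eq_or_lt' with h | h
  · obtain ⟨h0, h1, h2⟩ := eq_zero_of_mass ha h
    simp [dev, h, h0, h1, h2]
  · rw [dev, le_div_iff₀ (by positivity)]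
    nlinarith [sq_nonneg (a 0 - mass a - mass a * p), sq_nonneg (a 1 - mass a - mass a * q),
      sq_nonneg (a 2 - mass a - mass a * o)]

/-- `s` of a normalised posterior. -/
theorem dev_post {r : Fin 3 → ℝ} (hr : IsPost r) :
    dev r = ((r 0 - 1) ^ 2 + (r 1 - 1) ^ 2 + (r 2 - 1) ^ 2) / 6 := by
  rw [dev, mass_of_post hr, mul_one]

theorem pairs_post {r : Fin 3 → ℝ} (hr : IsPost r) : pairs r = 3 * (1 - dev r) := by
  rw [dev_post hr, pairs, show r 2 = 3 - r 0 - r 1 by linarith [hr.sum_eq]]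
  ring

theorem dev_le_one {r : Fin 3 → ℝ} (hr : IsPost r) : dev r ≤ 1 := by
  linarith [pairs_post hr, pairs_nonneg hr.nonneg]

theorem cls_post {r : Fin 3 → ℝ} (hr : IsPost r) :
    cls r = dev r - 1 / 2 + 3 / 2 * (r 0 * r 1 * r 2) / pairs r := by
  rw [cls, mass_of_post hr]

/-- Averaged combination dominates `s + t - 2 s t`. -/
theorem avg6_dev_ge {r r' : Fin 3 → ℝ} (hr : IsPost r) (hr' : IsPost r') :
    dev r + dev r' - 2 * dev r * dev r' ≤ avg6 dev r r' := by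
  have key := fun i j k : Fin 3 => dev_ge (comb_nonneg hr hr' i j k)
    (r 0 - 1 + (r' i - 1)) (r 1 - 1 + (r' j - 1)) (r 2 - 1 + (r' k - 1))
  have k1 := key 0 1 2; have k2 := key 1 2 0; have k3 := key 2 0 1
  have k4 := key 0 2 1; have k5 := key 2 1 0; have k6 := key 1 0 2
  rw [dev_post hr, dev_post hr', avg6]
  refine le_trans (le_of_eq ?_) (div_le_div_of_nonneg_right
    (add_le_add (add_le_add (add_le_add (add_le_add (add_le_add k1 k2) k3) k4) k5) k6)
    (by norm_num))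
  simp only [comb, mass, Matrix.cons_val]
  rw [show r 2 = 3 - r 0 - r 1 by linarith [hr.sum_eq],
    show r' 2 = 3 - r' 0 - r' 1 by linarith [hr'.sum_eq]]
  ring

/-- Combining does not lose information. -/
theorem avg6_dev_ge_left {r r' : Fin 3 → ℝ} (hr : IsPost r) (hr' : IsPost r') :
    dev r ≤ avg6 dev r r' := by
  have key := fun i j k : Fin 3 => dev_ge (comb_nonneg hr hr' i j k)
    (r 0 - 1) (r 1 - 1) (r 2 - 1)
  have k1 := key 0 1 2; have k2 := key 1 2 0; have k3 := key 2 0 1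
  have k4 := key 0 2 1; have k5 := key 2 1 0; have k6 := key 1 0 2
  rw [dev_post hr, avg6]
  refine le_trans (le_of_eq ?_) (div_le_div_of_nonneg_right
    (add_le_add (add_le_add (add_le_add (add_le_add (add_le_add k1 k2) k3) k4) k5) k6)
    (by norm_num))
  simp only [comb, mass, Matrix.cons_val]
  rw [show r 2 = 3 - r 0 - r 1 by linarith [hr.sum_eq],
    show r' 2 = 3 - r' 0 - r' 1 by linarith [hr'.sum_eq]]
  ring

theorem avg6_mass {r r' : Fin 3 → ℝ} (hr : IsPost r) (hr' : IsPost r') : avg6 mass r r' = 1 := by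
  simp only [avg6, comb, mass, Matrix.cons_val]
  rw [show r 2 = 3 - r 0 - r 1 by linarith [hr.sum_eq],
    show r' 2 = 3 - r' 0 - r' 1 by linarith [hr'.sum_eq]]
  ring

theorem tangent_inv {E m : ℝ} (hE : 0 < E) (hm : 0 < m) : 2 / m - E / m ^ 2 ≤ 1 / E := by
  rw [div_sub_div _ _ hm.ne' (pow_ne_zero 2 hm.ne'), div_le_div_iff₀ (by positivity) hE]
  nlinarith [mul_nonneg hm.le (sq_nonneg (E - m))]

/-- Jensen's inequality for the ratio of symmetric functions. -/
theorem avg6_ratio_ge {r r' : Fin 3 → ℝ} (hr : IsPost r) (hr' : IsPost r') :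
    2 * (3 / 2 * (r 0 * r 1 * r 2) / pairs r) * (3 / 2 * (r' 0 * r' 1 * r' 2) / pairs r') ≤
      avg6 (fun a => 3 / 2 * (a 0 * a 1 * a 2) / pairs a) r r' := by
  have h0 := hr.nonneg; have h0' := hr'.nonneg
  have hpos : ∀ i j k : Fin 3, 0 ≤ 3 / 2 *
      (comb r r' i j k 0 * comb r r' i j k 1 * comb r r' i j k 2) / pairs (comb r r' i j k) :=
    fun i j k => by
      have h := comb_nonneg hr hr' i j k
      have := h 0; have := h 1; have := h 2; have := pairs_nonneg h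
      positivity
  by_cases hR : r 0 * r 1 * r 2 * (r' 0 * r' 1 * r' 2) = 0
  · have hz : 2 * (3 / 2 * (r 0 * r 1 * r 2) / pairs r) *
        (3 / 2 * (r' 0 * r' 1 * r' 2) / pairs r') = 0 := by
      rcases mul_eq_zero.1 hR with h | h <;> rw [h] <;> simp
    rw [hz, avg6]
    have := hpos 0 1 2; have := hpos 1 2 0; have := hpos 2 0 1
    have := hpos 0 2 1; have := hpos 2 1 0; have := hpos 1 0 2
    positivity
  simp only [mul_eq_zero, not_or] at hR
  have p0 := (h0 0).lt_of_ne' hR.1.1.1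
  have p1 := (h0 1).lt_of_ne' hR.1.1.2
  have p2 := (h0 2).lt_of_ne' hR.1.2
  have q0 := (h0' 0).lt_of_ne' hR.2.1.1
  have q1 := (h0' 1).lt_of_ne' hR.2.1.2
  have q2 := (h0' 2).lt_of_ne' hR.2.2
  set e := pairs r with he
  set f := pairs r' with hf
  have hepos : 0 < e := by rw [he, pairs]; positivity
  have hfpos : 0 < f := by rw [hf, pairs]; positivity
  have hm : 0 < e * f / 3 := by positivity
  have hq : ∀ i, 0 < r' i := fun i => by fin_cases i <;> assumption
  have key : ∀ i j k : Fin 3, r' i * r' j * r' k = r' 0 * r' 1 * r' 2 →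
      3 / 2 * (r 0 * r 1 * r 2) * (r' 0 * r' 1 * r' 2) *
          (2 / (e * f / 3) - pairs (comb r r' i j k) / (e * f / 3) ^ 2) ≤
        3 / 2 * (comb r r' i j k 0 * comb r r' i j k 1 * comb r r' i j k 2) /
          pairs (comb r r' i j k) := by
    intro i j k hijk
    have hi := hq i; have hj := hq j; have hk := hq k
    have hE : 0 < pairs (comb r r' i j k) := by
      simp only [pairs, comb, Matrix.cons_val]; positivity
    have hprod : comb r r' i j k 0 * comb r r' i j k 1 * comb r r' i j k 2 =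
        r 0 * r 1 * r 2 * (r' 0 * r' 1 * r' 2) := by
      rw [← hijk]; simp only [comb, Matrix.cons_val]; ring
    rw [hprod, div_eq_mul_one_div (3 / 2 * (r 0 * r 1 * r 2 * (r' 0 * r' 1 * r' 2))),
      show 3 / 2 * (r 0 * r 1 * r 2 * (r' 0 * r' 1 * r' 2)) =
        3 / 2 * (r 0 * r 1 * r 2) * (r' 0 * r' 1 * r' 2) by ring]
    exact mul_le_mul_of_nonneg_left (tangent_inv hE hm) (by positivity)
  have hsum : pairs (comb r r' 0 1 2) + pairs (comb r r' 1 2 0) + pairs (comb r r' 2 0 1) +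
      pairs (comb r r' 0 2 1) + pairs (comb r r' 2 1 0) + pairs (comb r r' 1 0 2) = 2 * e * f := by
    simp only [he, hf, pairs, comb, Matrix.cons_val]; ring
  have k1 := key 0 1 2 rfl; have k2 := key 1 2 0 (by ring); have k3 := key 2 0 1 (by ring)
  have k4 := key 0 2 1 (by ring); have k5 := key 2 1 0 (by ring); have k6 := key 1 0 2 (by ring)
  rw [avg6]
  refine le_trans (le_of_eq ?_) (div_le_div_of_nonneg_right
    (add_le_add (add_le_add (add_le_add (add_le_add (add_le_add k1 k2) k3) k4) k5) k6)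
    (by norm_num))
  have hz : pairs (comb r r' 0 1 2) = 2 * e * f - pairs (comb r r' 1 2 0) -
      pairs (comb r r' 2 0 1) - pairs (comb r r' 0 2 1) - pairs (comb r r' 2 1 0) -
      pairs (comb r r' 1 0 2) := by linarith
  rw [hz]
  field_simp
  ring

/-- Closure of the class under combination, pointwise form. -/
theorem avg6_cls_ge {r r' : Fin 3 → ℝ} (hr : IsPost r) (hr' : IsPost r') :
    cls r * (1 - 2 * dev r') + cls r' * (1 - 2 * dev r) + 2 * cls r * cls r' ≤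
      avg6 cls r r' := by
  have h1 := avg6_dev_ge hr hr'
  have h2 := avg6_ratio_ge hr hr'
  have h3 := avg6_mass hr hr'
  have e : avg6 cls r r' = avg6 dev r r' - avg6 mass r r' / 2 +
      avg6 (fun a => 3 / 2 * (a 0 * a 1 * a 2) / pairs a) r r' := by
    simp only [avg6, cls]; ring
  rw [e, h3, cls_post hr, cls_post hr']
  nlinarith

/-- The class function of a combination is at least its deviation minus one half. -/
theorem avg6_dev_sub_half_le {r r' : Fin 3 → ℝ} (hr : IsPost r) (hr' : IsPost r') :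
    avg6 dev r r' - 1 / 2 ≤ avg6 cls r r' := by
  have key := fun i j k : Fin 3 => dev_sub_half_le_cls (comb_nonneg hr hr' i j k)
  have h3 := avg6_mass hr hr'
  simp only [avg6] at h3 ⊢
  linarith [key 0 1 2, key 1 2 0, key 2 0 1, key 0 2 1, key 2 1 0, key 1 0 2]

theorem dev_eq_mass_sub {a : Fin 3 → ℝ} (h : mass a ≠ 0) :
    dev a = mass a - pairs a / (3 * mass a) := by
  rw [dev, eq_sub_iff_add_eq,
    div_add_div _ _ (mul_ne_zero (by norm_num) h) (mul_ne_zero (by norm_num) h), div_eq_iff]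
  · unfold mass pairs; ring
  · positivity

/-- The polynomial lower bound for `e₂ / (3 mass)`. -/
def lowPoly (a : Fin 3 → ℝ) : ℝ :=
  pairs a / 3 * (1 - (mass a - 1) + (mass a - 1) ^ 2 - (mass a - 1) ^ 3)

theorem dev_le_poly {a : Fin 3 → ℝ} (ha : ∀ i, 0 ≤ a i) : dev a ≤ mass a - lowPoly a := by
  rcases (mass_nonneg ha).eq_or_lt' with h | h
  · obtain ⟨h0, h1, h2⟩ := eq_zero_of_mass ha h
    simp [dev, lowPoly, pairs, h, h0, h1, h2]
  · rw [dev_eq_mass_sub h.ne', sub_le_sub_iff_left, lowPoly, le_div_iff₀ (by positivity)]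
    nlinarith [mul_nonneg (pairs_nonneg ha) (pow_nonneg (sq_nonneg (mass a - 1)) 2)]

/-- The average of `lowPoly`. -/
def lowAvg (s c t d : ℝ) : ℝ :=
  1 - s - t + s * t + 2*c*t + 2*d*s - 2*c*d - 2*s^2*t - 2*s*t^2 - 2*c*t^2 - 2*d*s^2 - 2*s^2*t^2
    + 2*s*c*d + 2*t*c*d + 6*s*c*t^2 + 6*s^2*t*d - 8*s*t*c*d

/-- The cubic invariant `c = ∑ u³ / 6`. -/
def cube (r : Fin 3 → ℝ) : ℝ := ((r 0 - 1) ^ 3 + (r 1 - 1) ^ 3 + (r 2 - 1) ^ 3) / 6

theorem avg6_lowPoly {r r' : Fin 3 → ℝ} (hr : IsPost r) (hr' : IsPost r') :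
    avg6 lowPoly r r' = lowAvg (dev r) (cube r) (dev r') (cube r') := by
  rw [dev_post hr, dev_post hr']
  simp only [avg6, lowPoly, lowAvg, cube, comb, mass, pairs, Matrix.cons_val]
  rw [show r 2 = 3 - r 0 - r 1 by linarith [hr.sum_eq],
    show r' 2 = 3 - r' 0 - r' 1 by linarith [hr'.sum_eq]]
  ring

theorem prod_post {r : Fin 3 → ℝ} (hr : IsPost r) :
    r 0 * r 1 * r 2 = 1 - 3 * dev r + 2 * cube r := by
  rw [dev_post hr, cube, show r 2 = 3 - r 0 - r 1 by linarith [hr.sum_eq]]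
  ring

theorem cube_sq_le {r : Fin 3 → ℝ} (hr : IsPost r) : cube r ^ 2 ≤ dev r ^ 3 := by
  have : dev r ^ 3 - cube r ^ 2 = ((r 0 - r 1) * (r 1 - r 2) * (r 2 - r 0)) ^ 2 / 108 := by
    rw [dev_post hr, cube, show r 2 = 3 - r 0 - r 1 by linarith [hr.sum_eq]]
    ring
  nlinarith [sq_nonneg ((r 0 - r 1) * (r 1 - r 2) * (r 2 - r 0))]

theorem cube_ge {r : Fin 3 → ℝ} (hr : IsPost r) : (3 * dev r - 1) / 2 ≤ cube r := by
  have h := prod_post hr
  have := mul_nonneg (mul_nonneg (hr.nonneg 0) (hr.nonneg 1)) (hr.nonneg 2)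
  linarith

/-- The certificate in the variables `s, c, t, d`. -/
theorem certF_nonneg {s c t d : ℝ} (hs0 : 0 ≤ s) (hs1 : s ≤ 1) (ht0 : 0 ≤ t) (ht1 : t ≤ 1)
    (hc : c ^ 2 ≤ s ^ 3) (hc' : (3 * s - 1) / 2 ≤ c) (hd : d ^ 2 ≤ t ^ 3)
    (hd' : (3 * t - 1) / 2 ≤ d) : 0 ≤ certF s c t d := by
  obtain ⟨a, ha0, rfl⟩ : ∃ a, 0 ≤ a ∧ s = a ^ 2 :=
    ⟨Real.sqrt s, Real.sqrt_nonneg s, (Real.sq_sqrt hs0).symm⟩
  obtain ⟨b, hb0, rfl⟩ : ∃ b, 0 ≤ b ∧ t = b ^ 2 :=
    ⟨Real.sqrt t, Real.sqrt_nonneg t, (Real.sq_sqrt ht0).symm⟩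
  have ha1 : a ≤ 1 := by nlinarith
  have hb1 : b ≤ 1 := by nlinarith
  rw [show (a ^ 2) ^ 3 = (a ^ 3) ^ 2 by ring] at hc
  rw [show (b ^ 2) ^ 3 = (b ^ 3) ^ 2 by ring] at hd
  obtain ⟨hcl, hcu⟩ := abs_le.1 (abs_le_of_sq_le_sq hc (pow_nonneg ha0 3))
  obtain ⟨hdl, hdu⟩ := abs_le.1 (abs_le_of_sq_le_sq hd (pow_nonneg hb0 3))
  have symm : ∀ s c t d, certF s c t d = certF t d s c := fun s c t d => by
    unfold certF; ring
  have affine : ∀ s t d, ∃ p q, ∀ x, certF s x t d = p * x + q := fun s t d =>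
    ⟨certF s 1 t d - certF s 0 t d, certF s 0 t d, fun x => by unfold certF; ring⟩
  have hhh : 0 ≤ certF (a ^ 2) (a ^ 3) (b ^ 2) (b ^ 3) := certF_hi_hi ha0 ha1 hb0 hb1
  -- the second variable at its upper end
  have upper : ∀ x, -a ^ 3 ≤ x → (3 * a ^ 2 - 1) / 2 ≤ x → x ≤ a ^ 3 →
      0 ≤ certF (a ^ 2) x (b ^ 2) (b ^ 3) := by
    intro x h1 h2 h3
    obtain ⟨p, q, hpq⟩ := affine (a ^ 2) (b ^ 2) (b ^ 3)
    rcases le_total a (1 / 2) with ha | ha
    · refine certF_affine (f := fun x => certF (a ^ 2) x (b ^ 2) (b ^ 3)) hpq ?_ hhh h1 h3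
      show 0 ≤ certF (a ^ 2) (-a ^ 3) (b ^ 2) (b ^ 3)
      rw [symm]
      exact certF_hi_neg hb0 hb1 ha0 ha
    · refine certF_affine (f := fun x => certF (a ^ 2) x (b ^ 2) (b ^ 3)) hpq ?_ hhh h2 h3
      show 0 ≤ certF (a ^ 2) ((3 * a ^ 2 - 1) / 2) (b ^ 2) (b ^ 3)
      rw [symm]
      exact certF_hi_r0 hb0 hb1 ha ha1
  -- the second variable at its lower end
  have lower : 0 ≤ certF (a ^ 2) c (b ^ 2) (if b ≤ 1 / 2 then -b ^ 3 else (3 * b ^ 2 - 1) / 2) := by
    obtain ⟨p, q, hpq⟩ :=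
      affine (a ^ 2) (b ^ 2) (if b ≤ 1 / 2 then -b ^ 3 else (3 * b ^ 2 - 1) / 2)
    rcases le_total a (1 / 2) with ha | ha
    · refine certF_affine (f := fun x => certF (a ^ 2) x (b ^ 2) _) hpq ?_ ?_ hcl hcu
      · show 0 ≤ certF (a ^ 2) (-a ^ 3) (b ^ 2) _
        split_ifs with hb
        · exact certF_neg_neg ha0 ha hb0 hb
        · exact certF_neg_r0 ha0 ha (le_of_not_ge hb) hb1
      · show 0 ≤ certF (a ^ 2) (a ^ 3) (b ^ 2) _
        split_ifs with hb
        · exact certF_hi_neg ha0 ha1 hb0 hb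
        · exact certF_hi_r0 ha0 ha1 (le_of_not_ge hb) hb1
    · refine certF_affine (f := fun x => certF (a ^ 2) x (b ^ 2) _) hpq ?_ ?_ hc' hcu
      · show 0 ≤ certF (a ^ 2) ((3 * a ^ 2 - 1) / 2) (b ^ 2) _
        split_ifs with hb
        · rw [symm]; exact certF_neg_r0 hb0 hb ha ha1
        · exact certF_r0_r0 ha ha1 (le_of_not_ge hb) hb1
      · show 0 ≤ certF (a ^ 2) (a ^ 3) (b ^ 2) _
        split_ifs with hb
        · exact certF_hi_neg ha0 ha1 hb0 hb
        · exact certF_hi_r0 ha0 ha1 (le_of_not_ge hb) hb1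
  obtain ⟨p, q, hpq⟩ := affine (b ^ 2) (a ^ 2) c
  have hf : ∀ x, certF (a ^ 2) c (b ^ 2) x = p * x + q := fun x => by rw [symm]; exact hpq x
  refine certF_affine (f := fun x => certF (a ^ 2) c (b ^ 2) x) hf lower
    (upper c hcl hc' hcu) ?_ hdu
  split_ifs with hb
  exacts [hdl, hd']

/-- Deterministic posteriors have class value one half. -/
theorem of_dev_eq_one {r : Fin 3 → ℝ} (hr : IsPost r) (h : dev r = 1) :
    cube r = 1 ∧ cls r = 1 / 2 := by
  have he : pairs r = 0 := by rw [pairs_post hr, h]; ring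
  have hp : r 0 * r 1 * r 2 = 0 := by
    have h01 := mul_nonneg (hr.nonneg 0) (hr.nonneg 1)
    have h02 := mul_nonneg (hr.nonneg 0) (hr.nonneg 2)
    have h12 := mul_nonneg (hr.nonneg 1) (hr.nonneg 2)
    have : r 0 * r 1 = 0 := by unfold pairs at he; linarith
    rw [this, zero_mul]
  refine ⟨by linarith [prod_post hr], ?_⟩
  rw [cls_post hr, h, he, div_zero]
  norm_num

theorem cls_mul_of_lt {r : Fin 3 → ℝ} (hr : IsPost r) (h : dev r < 1) :
    cls r = (cube r - dev r ^ 2) / (1 - dev r) := by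
  rw [cls_post hr, pairs_post hr, prod_post hr]
  field_simp [(sub_pos.2 h).ne']
  ring

/-- Subadditivity of the squared deviation, pointwise form. -/
theorem avg6_dev_le {r r' : Fin 3 → ℝ} (hr : IsPost r) (hr' : IsPost r') :
    avg6 dev r r' ≤ dev r + dev r' -
      (cls r * dev r' + cls r' * dev r - 2 * cls r * cls r') - dev r * dev r' / 50 := by
  have key := fun i j k : Fin 3 => dev_le_poly (comb_nonneg hr hr' i j k)
  have hle : avg6 dev r r' ≤ 1 - lowAvg (dev r) (cube r) (dev r') (cube r') := by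
    have h3 := avg6_mass hr hr'
    rw [← avg6_lowPoly hr hr']
    simp only [avg6] at h3 ⊢
    linarith [key 0 1 2, key 1 2 0, key 2 0 1, key 0 2 1, key 2 1 0, key 1 0 2]
  refine hle.trans ?_
  have hs0 := dev_nonneg hr.nonneg
  have ht0 := dev_nonneg hr'.nonneg
  rcases (dev_le_one hr).eq_or_lt with hs | hs
  · obtain ⟨hc, hh⟩ := of_dev_eq_one hr hs
    rw [hs, hc, hh]
    have : lowAvg 1 1 (dev r') (cube r') = 0 := by unfold lowAvg; ring
    rw [this]
    nlinarith [dev_le_one hr']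
  rcases (dev_le_one hr').eq_or_lt with ht | ht
  · obtain ⟨hc, hh⟩ := of_dev_eq_one hr' ht
    rw [ht, hc, hh]
    have : lowAvg (dev r) (cube r) 1 1 = 0 := by unfold lowAvg; ring
    rw [this]
    nlinarith [dev_le_one hr]
  have hF := certF_nonneg hs0 hs.le ht0 ht.le (cube_sq_le hr) (cube_ge hr) (cube_sq_le hr')
    (cube_ge hr')
  rw [cls_mul_of_lt hr hs, cls_mul_of_lt hr' ht]
  generalize dev r = s at *
  generalize dev r' = t at *
  generalize cube r = c at *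
  generalize cube r' = d at *
  have hA : 0 < 1 - s := sub_pos.2 hs
  have hB : 0 < 1 - t := sub_pos.2 ht
  have e : (s + t - ((c - s ^ 2) / (1 - s) * t + (d - t ^ 2) / (1 - t) * s -
      2 * ((c - s ^ 2) / (1 - s)) * ((d - t ^ 2) / (1 - t))) - s * t / 50
      - (1 - lowAvg s c t d)) * ((1 - s) * (1 - t)) = certF s c t d := by
    unfold lowAvg certF
    field_simp
    ring
  rw [← e] at hF
  linarith [nonneg_of_mul_nonneg_left hF (mul_pos hA hB)]

/-- The class function is at most half of the deviation. -/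
theorem cls_le_half_dev {r : Fin 3 → ℝ} (hr : IsPost r) : cls r ≤ dev r / 2 := by
  rcases (dev_le_one hr).eq_or_lt with hs | hs
  · rw [(of_dev_eq_one hr hs).2, hs]
  have hc := cube_sq_le hr
  have h0 := dev_nonneg hr.nonneg
  rw [cls_mul_of_lt hr hs, div_le_iff₀ (sub_pos.2 hs)]
  generalize dev r = s at *
  generalize cube r = c at *
  nlinarith [sq_nonneg (s - 1), mul_nonneg h0 (sq_nonneg (s - 1)),
    sq_nonneg (2 * c + (s + s ^ 2)), sq_nonneg (2 * c - (s + s ^ 2))]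

theorem dev_shrink {r : Fin 3 → ℝ} (hr : IsPost r) (lam : ℝ) :
    dev (shrink lam r) = lam ^ 2 * dev r := by
  rw [dev_post hr, dev, show mass (shrink lam r) = 1 by
    simp only [mass, shrink]
    linear_combination (lam / 3) * hr.sum_eq]
  simp only [shrink]
  ring

theorem isPost_shrink {r : Fin 3 → ℝ} (hr : IsPost r) {lam : ℝ} (h0 : 0 ≤ lam) (h1 : lam ≤ 1) :
    IsPost (shrink lam r) :=
  ⟨fun i => by
    have := mul_nonneg h0 (hr.nonneg i)
    simp only [shrink]; nlinarith,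
   by simp only [shrink]; linear_combination lam * hr.sum_eq⟩

theorem cube_shrink (r : Fin 3 → ℝ) (lam : ℝ) : cube (shrink lam r) = lam ^ 3 * cube r := by
  simp only [cube, shrink]; ring

/-- The class is preserved by the channel, pointwise form. -/
theorem cls_shrink_ge {r : Fin 3 → ℝ} (hr : IsPost r) {lam : ℝ} (h0 : 0 ≤ lam) (h1 : lam ≤ 1) :
    lam ^ 3 * cls r ≤ cls (shrink lam r) := by
  rcases h1.eq_or_lt with rfl | hlam
  · have : shrink 1 r = r := by funext i; simp [shrink]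
    rw [this, one_pow, one_mul]
  have hr' := isPost_shrink hr h0 h1
  have hs0 := dev_nonneg hr.nonneg
  have hlt : lam ^ 2 * dev r < 1 := by nlinarith [dev_le_one hr]
  rw [cls_mul_of_lt hr' (by rw [dev_shrink hr]; exact hlt), dev_shrink hr, cube_shrink,
    le_div_iff₀ (sub_pos.2 hlt)]
  rcases (dev_le_one hr).eq_or_lt with hs | hs
  · obtain ⟨hc, hh⟩ := of_dev_eq_one hr hs
    rw [hs, hc, hh]
    nlinarith [mul_nonneg (pow_nonneg h0 3) (sq_nonneg (1 - lam))]
  rw [cls_mul_of_lt hr hs, ← mul_div_assoc, div_mul_eq_mul_div, div_le_iff₀ (sub_pos.2 hs)]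
  obtain ⟨a, ha0, ha⟩ : ∃ a, 0 ≤ a ∧ dev r = a ^ 2 :=
    ⟨Real.sqrt (dev r), Real.sqrt_nonneg _, (Real.sq_sqrt hs0).symm⟩
  have hc := cube_sq_le hr
  rw [ha, show (a ^ 2) ^ 3 = (a ^ 3) ^ 2 by ring] at hc
  obtain ⟨-, hcu⟩ := abs_le.1 (abs_le_of_sq_le_sq hc (pow_nonneg ha0 3))
  rw [ha] at hs ⊢
  have ha1 : a ≤ 1 := by nlinarith
  have hla : lam * a ≤ 1 := by nlinarith
  nlinarith [mul_nonneg (mul_nonneg (mul_nonneg (pow_nonneg h0 3) (sub_nonneg.2 h1))
      (pow_nonneg ha0 4)) (mul_nonneg (sub_nonneg.2 ha1) (sub_nonneg.2 hla)),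
    mul_nonneg (mul_nonneg (mul_nonneg (pow_nonneg h0 3) (sub_nonneg.2 h1))
      (mul_nonneg (sq_nonneg a) (add_nonneg zero_le_one h0))) (sub_nonneg.2 hcu)]

/-- Closure of the class under combination, for finite laws. -/
theorem closure_sum {ι κ : Type*} [Fintype ι] [Fintype κ] {w : ι → ℝ} {v : κ → ℝ}
    {r : ι → Fin 3 → ℝ} {r' : κ → Fin 3 → ℝ} (hw : ∀ a, 0 ≤ w a) (hv : ∀ b, 0 ≤ v b)
    (hw1 : ∑ a, w a = 1) (hv1 : ∑ b, v b = 1) (hr : ∀ a, IsPost (r a)) (hr' : ∀ b, IsPost (r' b))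
    (hH : 0 ≤ ∑ a, w a * cls (r a)) (hG : 0 ≤ ∑ b, v b * cls (r' b)) :
    0 ≤ ∑ a, ∑ b, w a * v b * avg6 cls (r a) (r' b) := by
  set H := ∑ a, w a * cls (r a) with hHd
  set G := ∑ b, v b * cls (r' b) with hGd
  set S := ∑ a, w a * dev (r a) with hSd
  set T := ∑ b, v b * dev (r' b) with hTd
  have e : ∀ (f : ι → ℝ) (g : κ → ℝ),
      ∑ a, ∑ b, w a * v b * (f a * g b) = (∑ a, w a * f a) * ∑ b, v b * g b := fun f g => by
    rw [Finset.sum_mul_sum]
    exact Finset.sum_congr rfl fun a _ => Finset.sum_congr rfl fun b _ => by ring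
  have hwv : ∀ a b, 0 ≤ w a * v b := fun a b => mul_nonneg (hw a) (hv b)
  by_cases hS : 1 / 2 ≤ S
  · have h1 : ∑ a, ∑ b, w a * v b * ((dev (r a) - 1 / 2) * 1) ≤
        ∑ a, ∑ b, w a * v b * avg6 cls (r a) (r' b) :=
      Finset.sum_le_sum fun a _ => Finset.sum_le_sum fun b _ =>
        mul_le_mul_of_nonneg_left (by
          linarith [avg6_dev_ge_left (hr a) (hr' b), avg6_dev_sub_half_le (hr a) (hr' b)]) (hwv a b)
    rw [e] at h1
    simp only [mul_sub, Finset.sum_sub_distrib, mul_one, ← Finset.sum_mul, hv1, hw1] at h1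
    rw [← hSd] at h1
    linarith
  by_cases hT : 1 / 2 ≤ T
  · have hsym : ∀ a b, avg6 dev (r a) (r' b) = avg6 dev (r' b) (r a) := fun a b => by
      simp only [avg6, comb, dev, mass, Matrix.cons_val]
      ring
    have h1 : ∑ a, ∑ b, w a * v b * (1 * (dev (r' b) - 1 / 2)) ≤
        ∑ a, ∑ b, w a * v b * avg6 cls (r a) (r' b) :=
      Finset.sum_le_sum fun a _ => Finset.sum_le_sum fun b _ =>
        mul_le_mul_of_nonneg_left (by
          linarith [avg6_dev_ge_left (hr' b) (hr a), hsym a b,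
            avg6_dev_sub_half_le (hr a) (hr' b)]) (hwv a b)
    rw [e] at h1
    simp only [mul_sub, Finset.sum_sub_distrib, mul_one, ← Finset.sum_mul, hv1, hw1] at h1
    rw [← hTd] at h1
    linarith
  have h1 : ∑ a, ∑ b, w a * v b * (cls (r a) * (1 - 2 * dev (r' b)) +
      (1 - 2 * dev (r a)) * cls (r' b) + 2 * cls (r a) * cls (r' b)) ≤
        ∑ a, ∑ b, w a * v b * avg6 cls (r a) (r' b) :=
    Finset.sum_le_sum fun a _ => Finset.sum_le_sum fun b _ =>
      mul_le_mul_of_nonneg_left (by linarith [avg6_cls_ge (hr a) (hr' b)]) (hwv a b)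
  simp only [mul_add, Finset.sum_add_distrib, e] at h1
  have e2 : ∑ a, w a * (1 - 2 * dev (r a)) = 1 - 2 * S := by
    simp only [mul_sub, Finset.sum_sub_distrib, mul_one, hw1, hSd, Finset.mul_sum]
    congr 1; exact Finset.sum_congr rfl fun a _ => by ring
  have e3 : ∑ b, v b * (1 - 2 * dev (r' b)) = 1 - 2 * T := by
    simp only [mul_sub, Finset.sum_sub_distrib, mul_one, hv1, hTd, Finset.mul_sum]
    congr 1; exact Finset.sum_congr rfl fun a _ => by ring
  have e4 : ∑ a, w a * (2 * cls (r a)) = 2 * H := by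
    rw [hHd, Finset.mul_sum]; exact Finset.sum_congr rfl fun a _ => by ring
  rw [e2, e3, e4, ← hHd, ← hGd] at h1
  nlinarith [mul_nonneg hH hG]

/-- Subadditivity of the squared deviation, for finite laws in the class. -/
theorem subadd_sum {ι κ : Type*} [Fintype ι] [Fintype κ] {w : ι → ℝ} {v : κ → ℝ}
    {r : ι → Fin 3 → ℝ} {r' : κ → Fin 3 → ℝ} (hw : ∀ a, 0 ≤ w a) (hv : ∀ b, 0 ≤ v b)
    (hw1 : ∑ a, w a = 1) (hv1 : ∑ b, v b = 1) (hr : ∀ a, IsPost (r a)) (hr' : ∀ b, IsPost (r' b))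
    (hH : 0 ≤ ∑ a, w a * cls (r a)) (hG : 0 ≤ ∑ b, v b * cls (r' b)) :
    ∑ a, ∑ b, w a * v b * avg6 dev (r a) (r' b) ≤
      (∑ a, w a * dev (r a)) + (∑ b, v b * dev (r' b)) -
        (∑ a, w a * dev (r a)) * (∑ b, v b * dev (r' b)) / 50 := by
  have e : ∀ (f : ι → ℝ) (g : κ → ℝ),
      ∑ a, ∑ b, w a * v b * (f a * g b) = (∑ a, w a * f a) * ∑ b, v b * g b := fun f g => by
    rw [Finset.sum_mul_sum]
    exact Finset.sum_congr rfl fun a _ => Finset.sum_congr rfl fun b _ => by ring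
  have h1 : ∑ a, ∑ b, w a * v b * avg6 dev (r a) (r' b) ≤ ∑ a, ∑ b, w a * v b *
      (dev (r a) * 1 + 1 * dev (r' b) - cls (r a) * dev (r' b) - dev (r a) * cls (r' b) +
        (2 * cls (r a)) * cls (r' b) - (dev (r a) / 50) * dev (r' b)) :=
    Finset.sum_le_sum fun a _ => Finset.sum_le_sum fun b _ =>
      mul_le_mul_of_nonneg_left (by linarith [avg6_dev_le (hr a) (hr' b)])
        (mul_nonneg (hw a) (hv b))
  simp only [mul_sub, mul_add, Finset.sum_add_distrib, Finset.sum_sub_distrib, e] at h1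
  simp only [mul_one, hw1, hv1, one_mul] at h1
  have hHS : ∑ a, w a * cls (r a) ≤ (∑ a, w a * dev (r a)) / 2 := by
    rw [Finset.sum_div]
    exact Finset.sum_le_sum fun a _ => by
      linarith [mul_le_mul_of_nonneg_left (cls_le_half_dev (hr a)) (hw a)]
  have hGT : ∑ b, v b * cls (r' b) ≤ (∑ b, v b * dev (r' b)) / 2 := by
    rw [Finset.sum_div]
    exact Finset.sum_le_sum fun b _ => by
      linarith [mul_le_mul_of_nonneg_left (cls_le_half_dev (hr' b)) (hv b)]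
  have e4 : ∑ a, w a * (2 * cls (r a)) = 2 * ∑ a, w a * cls (r a) := by
    rw [Finset.mul_sum]; exact Finset.sum_congr rfl fun a _ => by ring
  have e5 : ∑ a, w a * (dev (r a) / 50) = (∑ a, w a * dev (r a)) / 50 := by
    rw [Finset.sum_div]; exact Finset.sum_congr rfl fun a _ => by ring
  rw [e4, e5] at h1
  nlinarith [mul_le_mul_of_nonneg_left hGT hH, mul_le_mul_of_nonneg_left hHS hG]

end

end Vale.Agent.P154.Class3
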