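import Mathlib

/-!
Potts broadcasting on rooted trees of depth `n`, reconstruction quantity `a_n`.
-/

namespace Vale.Agent.P154

open Filter Topology

/-- The Potts channel `P_lam(j | i)`. -/
noncomputable def potts (q : ℕ) (lam : ℝ) (i j : Fin q) : ℝ :=
  lam * (if i = j then 1 else 0) + (1 - lam) / q

/-- Rooted trees truncated at depth `n`: the root carries the number of its children and,
for each child, the subtree below it. -/
def Tree : ℕ → Type
  | 0 => Unit
  | n + 1 => Σ k : ℕ, Fin k → Tree n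

/-- The vertices at distance exactly `n` from the root. -/
def Leaf : (n : ℕ) → Tree n → Type
  | 0, _ => Unit
  | n + 1, T => Σ c : Fin T.1, Leaf n (T.2 c)

noncomputable instance instFintypeLeaf : (n : ℕ) → (T : Tree n) → Fintype (Leaf n T)
  | 0, _ => inferInstanceAs (Fintype Unit)
  | n + 1, T =>
    haveI : ∀ c : Fin T.1, Fintype (Leaf n (T.2 c)) := fun c => instFintypeLeaf n (T.2 c)
    inferInstanceAs (Fintype (Σ c : Fin T.1, Leaf n (T.2 c)))

noncomputable instance instDecEqLeaf (n : ℕ) (T : Tree n) : DecidableEq (Leaf n T) :=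
  Classical.decEq _

/-- Probability that the spins at level `n` are `η`, given that the root spin is `i`. -/
noncomputable def lik {q : ℕ} (lam : ℝ) :
    (n : ℕ) → (T : Tree n) → Fin q → (Leaf n T → Fin q) → ℝ
  | 0, _, i, η => if η () = i then 1 else 0
  | n + 1, T, i, η =>
    ∏ c : Fin T.1, ∑ j : Fin q, potts q lam i j * lik lam n (T.2 c) j (fun l => η ⟨c, l⟩)

/-- Probability of the level-`n` spins `η` for a uniform root spin. -/
noncomputable def evid {q : ℕ} (lam : ℝ) (n : ℕ) (T : Tree n) (η : Leaf n T → Fin q) : ℝ :=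
  ∑ i : Fin q, (1 / q : ℝ) * lik lam n T i η

/-- Posterior probability that the root spin is `i`. -/
noncomputable def posterior {q : ℕ} (lam : ℝ) (n : ℕ) (T : Tree n) (η : Leaf n T → Fin q)
    (i : Fin q) : ℝ :=
  (1 / q : ℝ) * lik lam n T i η / evid lam n T η

/-- Expected total variation distance between posterior and prior for a given tree. -/
noncomputable def advantage (q : ℕ) (lam : ℝ) (n : ℕ) (T : Tree n) : ℝ :=
  ∑ η : Leaf n T → Fin q,
    evid lam n T η * ((1 / 2 : ℝ) * ∑ i : Fin q, |posterior lam n T η i - 1 / q|)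

/-- The `d`-ary tree of depth `n`. -/
def regular (d : ℕ) : (n : ℕ) → Tree n
  | 0 => ()
  | n + 1 => ⟨d, fun _ => regular d n⟩

/-- The Poisson Galton-Watson law of the first `n` generations. -/
noncomputable def gwWeight (d : ℝ) : (n : ℕ) → Tree n → ℝ
  | 0, _ => 1
  | n + 1, T => Real.exp (-d) * d ^ T.1 / (Nat.factorial T.1 : ℝ) *
      ∏ c : Fin T.1, gwWeight d n (T.2 c)

/-- `a_n` on the `d`-ary tree. -/
noncomputable def aRegular (q : ℕ) (lam : ℝ) (d : ℕ) (n : ℕ) : ℝ :=
  advantage q lam n (regular d n)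

/-- `a_n` on the Poisson Galton-Watson tree. -/
noncomputable def aPoisson (q : ℕ) (lam : ℝ) (d : ℝ) (n : ℕ) : ℝ :=
  ∑' T : Tree n, gwWeight d n T * advantage q lam n T

/-- `lim a_n > 0`, for a nonincreasing nonnegative sequence. -/
def Reconstructs (a : ℕ → ℝ) : Prop :=
  ∃ ε : ℝ, 0 < ε ∧ ∀ n, ε ≤ a n

/-- `lim a_n = 0`. -/
def NonReconstructs (a : ℕ → ℝ) : Prop :=
  Tendsto a atTop (𝓝 0)

/-- The full answer predicted in the problem. -/
def ThresholdStatement : Prop :=
  ∀ (q : ℕ) (lam : ℝ),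
    ((q = 3 ∧ -(1 / 2 : ℝ) ≤ lam ∧ lam ≤ 1) ∨ (q = 4 ∧ 0 ≤ lam ∧ lam ≤ 1)) →
      (∀ d : ℕ, 2 ≤ d →
        ((d : ℝ) * lam ^ 2 ≤ 1 → NonReconstructs (aRegular q lam d)) ∧
        (1 < (d : ℝ) * lam ^ 2 → Reconstructs (aRegular q lam d))) ∧
      (∀ d : ℝ, 0 < d →
        (d * lam ^ 2 ≤ 1 → NonReconstructs (aPoisson q lam d)) ∧
        (1 < d * lam ^ 2 → Reconstructs (aPoisson q lam d)))

end Vale.Agent.P154
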