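import Vale.Agent.P154.Api

/-!
Consequences of a ferromagnetic certificate at one vertex.
-/

namespace Vale.Agent.P154

noncomputable section

variable {q : ℕ}

theorem ss_nonneg (hq : 2 ≤ q) (u : Fin q → ℝ) : 0 ≤ ss u := by
  have : (2 : ℝ) ≤ q := by exact_mod_cast hq
  exact div_nonneg (Finset.sum_nonneg fun i _ => sq_nonneg _)
    (mul_nonneg (Nat.cast_nonneg q) (by linarith))

theorem ss_le_one (hq : 2 ≤ q) {u : Fin q → ℝ} (hu : Dev u) : ss u ≤ 1 := by
  have hq' : (2 : ℝ) ≤ q := by exact_mod_cast hq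
  have h : 0 ≤ ∑ i, (u i + 1) * ((q : ℝ) - 1 - u i) :=
    Finset.sum_nonneg fun i _ => mul_nonneg (by linarith [hu.2 i]) (by linarith [hu.le_sub i])
  have e : ∑ i, (u i + 1) * ((q : ℝ) - 1 - u i) =
      ∑ i, (((q : ℝ) - 2) * u i + ((q : ℝ) - 1) - u i ^ 2) :=
    Finset.sum_congr rfl fun i _ => by ring
  rw [e, Finset.sum_sub_distrib, Finset.sum_add_distrib, ← Finset.mul_sum, hu.1, Finset.sum_const,
    Finset.card_univ, Fintype.card_fin, nsmul_eq_mul] at h
  rw [ss, div_le_one (mul_pos (by linarith) (by linarith))]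
  linarith

theorem Law.S_nonneg (hq : 2 ≤ q) (A : Law q) : 0 ≤ A.S := by
  rw [← A.const 0]
  exact A.mono _ _ fun u _ => ss_nonneg hq u

theorem Law.S_le_one (hq : 2 ≤ q) (A : Law q) : A.S ≤ 1 := by
  rw [← A.one]
  exact A.mono _ _ fun u hu => ss_le_one hq hu

theorem Law.S_scale (hq : 2 ≤ q) (lam : ℝ) (hl : -(1 / ((q : ℝ) - 1)) ≤ lam) (hl' : lam ≤ 1)
    (A : Law q) : (A.scale hq lam hl hl').S = lam ^ 2 * A.S := by
  rw [Law.S, Law.scale_E, Law.S, ← A.smul_fun]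
  congr 1
  funext u
  simp only [ss, mul_pow, ← Finset.mul_sum]
  ring

/-- The data of a ferromagnetic certificate. -/
structure FerroData (q : ℕ) (hq : 2 ≤ q) where
  K : Law q → Prop
  ε : ℝ
  m : ℕ
  ε_pos : 0 < ε
  ε_le : ε ≤ 1
  one_le_m : 1 ≤ m
  leaf : K (Law.leaf (by omega))
  unit : K (Law.unit q)
  scale : ∀ (A : Law q) (lam : ℝ) (h0 : 0 ≤ lam) (h1 : lam ≤ 1), K A →
    K (A.scale hq lam (lam_lower hq h0) h1)
  merge : ∀ A B : Law q, K A → K B → K (A.merge (by omega) B) ∧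
    (A.merge (by omega) B).S ≤ A.S + B.S - ε * A.S ^ m * B.S

theorem FerroCert.data {hq : 2 ≤ q} (h : FerroCert q hq) : Nonempty (FerroData q hq) := by
  obtain ⟨K, ε, m, h1, h2, h3, h4, h5, h6, h7⟩ := h
  exact ⟨⟨K, ε, m, h1, h2, h3, h4, h5, h6, h7⟩⟩

namespace FerroData

variable {hq : 2 ≤ q} (F : FerroData q hq)

theorem node (k : ℕ) : ∀ f : Fin k → Law q, (∀ c, F.K (f c)) →
    F.K (Law.node (by omega) k f) ∧ (Law.node (by omega) k f).S ≤ ∑ c, (f c).S := by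
  induction k with
  | zero =>
    intro f _
    refine ⟨F.unit, ?_⟩
    show ss (0 : Fin q → ℝ) ≤ _
    simp [ss]
  | succ k ih =>
    intro f hf
    obtain ⟨hK, hS⟩ := ih (fun c => f c.succ) fun c => hf _
    obtain ⟨hK', hS'⟩ := F.merge (f 0) _ (hf 0) hK
    refine ⟨hK', hS'.trans ?_⟩
    rw [Fin.sum_univ_succ]
    linarith [mul_nonneg (mul_nonneg F.ε_pos.le (pow_nonneg (Law.S_nonneg hq (f 0)) F.m))
      (Law.S_nonneg hq (Law.node (by omega) k fun c => f c.succ))]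

/-- Strict subadditivity at a vertex. -/
theorem node_gain (k : ℕ) (f : Fin (k + 1) → Law q) (hf : ∀ c, F.K (f c)) :
    (Law.node (by omega) (k + 1) f).S ≤
      (∑ c, (f c).S) - F.ε * (f 0).S ^ F.m * ∑ c : Fin k, (f c.succ).S := by
  obtain ⟨hK, hS⟩ := F.node k (fun c => f c.succ) fun c => hf _
  obtain ⟨-, hS'⟩ := F.merge (f 0) _ (hf 0) hK
  refine hS'.trans ?_
  have h1 : F.ε * (f 0).S ^ F.m ≤ 1 :=
    mul_le_one₀ F.ε_le (pow_nonneg (Law.S_nonneg hq _) _)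
      (pow_le_one₀ (Law.S_nonneg hq _) (Law.S_le_one hq _))
  rw [Fin.sum_univ_succ]
  nlinarith [mul_le_mul_of_nonneg_left hS (sub_nonneg.2 h1)]

variable {lam : ℝ} (h0 : 0 ≤ lam) (h1 : lam ≤ 1)

theorem tree (n : ℕ) : ∀ T : Tree n, F.K (treeLaw hq lam (lam_lower hq h0) h1 n T) := by
  induction n with
  | zero => exact fun _ => F.leaf
  | succ n ih => exact fun T => (F.node T.1 _ fun c => F.scale _ lam h0 h1 (ih (T.2 c))).1

include F in
theorem tree_sum (n : ℕ) (T : Tree (n + 1)) :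
    (treeLaw hq lam (lam_lower hq h0) h1 (n + 1) T).S ≤
      lam ^ 2 * ∑ c, (treeLaw hq lam (lam_lower hq h0) h1 n (T.2 c)).S := by
  refine (F.node T.1 (fun c => (treeLaw hq lam (lam_lower hq h0) h1 n (T.2 c)).scale hq lam
    (lam_lower hq h0) h1) fun c => F.scale _ lam h0 h1 (F.tree h0 h1 n (T.2 c))).2.trans
    (le_of_eq ?_)
  simp only [Law.S_scale, Finset.mul_sum]

/-- Strict subadditivity at a vertex with two children. -/
theorem tree_two (n : ℕ) (x : Fin 2 → Tree n) :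
    (treeLaw hq lam (lam_lower hq h0) h1 (n + 1) ⟨2, x⟩).S ≤
      lam ^ 2 * ∑ c, (treeLaw hq lam (lam_lower hq h0) h1 n (x c)).S -
        F.ε * (lam ^ 2) ^ (F.m + 1) *
          ((treeLaw hq lam (lam_lower hq h0) h1 n (x 0)).S ^ F.m *
            (treeLaw hq lam (lam_lower hq h0) h1 n (x 1)).S) := by
  refine (F.node_gain 1 (fun c => (treeLaw hq lam (lam_lower hq h0) h1 n (x c)).scale hq lam
    (lam_lower hq h0) h1) fun c => F.scale _ lam h0 h1 (F.tree h0 h1 n (x c))).trans (le_of_eq ?_)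
  simp only [Law.S_scale, ← Finset.mul_sum, Fin.sum_univ_one, mul_pow, pow_succ,
    show (Fin.succ 0 : Fin 2) = 1 from rfl]
  ring

end FerroData

end

end Vale.Agent.P154
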