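import Vale.Agent.P154.Api2
import Mathlib.Analysis.SpecialFunctions.ExpDeriv
import Mathlib.Analysis.Calculus.Deriv.MeanValue

/-!
P154: Padé bounds for the two generating functions.
-/

namespace Vale.Agent.P154

namespace Pade

/-- The denominator. -/
noncomputable def den (e g t : ℝ) : ℝ := 1 + (1 - 2 * e) / 3 * t + g * t ^ 2

/-- The numerator. -/
noncomputable def num (e g t : ℝ) : ℝ := den e g t * (1 - t) + (1 - e) / 2 * t ^ 2

/-- Sign of the derivative. -/
noncomputable def res (e g t : ℝ) : ℝ :=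
  (1 - e * t) * (((1 - 2 * e) / 3 + 2 * g * t) * num e g t -
    (((1 - 2 * e) / 3 + 2 * g * t) * (1 - t) - den e g t + (1 - e) * t) * den e g t) -
  num e g t * den e g t

lemma den_pos {e g t : ℝ} (he : e ≤ 1 / 2) (hg : 0 ≤ g) (ht : 0 ≤ t) : 0 < den e g t := by
  have : 0 ≤ (1 - 2 * e) / 3 * t := mul_nonneg (by linarith) ht
  have : 0 ≤ g * t ^ 2 := mul_nonneg hg (sq_nonneg t)
  unfold den
  linarith

lemma res_upper {e t : ℝ} (he0 : 0 ≤ e) (he : e ≤ 1 / 2) (ht : 0 ≤ t) : res e 0 t ≤ 0 := by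
  have h : res e 0 t = -((1 - 2 * e) * (1 - e) * (1 + e) * t ^ 3 / 18) := by
    unfold res num den; ring
  rw [h, neg_nonpos]
  have : 0 ≤ 1 - 2 * e := by linarith
  have : 0 ≤ 1 - e := by linarith
  positivity

lemma res_lower {e t : ℝ} (he0 : 0 ≤ e) (he : e ≤ 1 / 2) (ht : 0 ≤ t) (ht2 : t ≤ 2) :
    0 ≤ res e (1 / 36) t := by
  have h : res e (1 / 36) t = (1 - e) * t ^ 3 / 1296 *
      ((12 * e - 2 * t) ^ 2 + 72 * e + 3 * t * (2 - t)) := by
    unfold res num den; ring
  rw [h]
  have : 0 ≤ 1 - e := by linarith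
  have : 0 ≤ 2 - t := by linarith
  positivity

lemma hasDerivAt_quot {W : ℝ → ℝ} {e g t : ℝ} (hd : den e g t ≠ 0) (het : 1 - e * t ≠ 0)
    (hW : HasDerivAt W (W t / (1 - e * t)) t) :
    HasDerivAt (fun s => num e g s * W s / den e g s)
      (-(W t * res e g t / ((1 - e * t) * den e g t ^ 2))) t := by
  have h1 : HasDerivAt (fun s => den e g s) ((1 - 2 * e) / 3 + 2 * g * t) t := by
    have := (((hasDerivAt_id t).const_mul ((1 - 2 * e) / 3)).const_add 1).add
      (((hasDerivAt_id t).pow 2).const_mul g)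
    refine (this.congr_deriv (by simp; ring)).congr_of_eventuallyEq ?_
    exact Filter.Eventually.of_forall fun s => by simp [den]
  have h2 : HasDerivAt (fun s => num e g s)
      (((1 - 2 * e) / 3 + 2 * g * t) * (1 - t) - den e g t + (1 - e) * t) t := by
    have := (h1.mul ((hasDerivAt_id t).const_sub 1)).add
      (((hasDerivAt_id t).pow 2).const_mul ((1 - e) / 2))
    refine (this.congr_deriv (by simp; ring)).congr_of_eventuallyEq ?_
    exact Filter.Eventually.of_forall fun s => by simp [num]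
  refine ((h2.mul hW).div h1 hd).congr_deriv ?_
  rw [res, ← sub_eq_zero]
  simp only [Pi.mul_apply]
  field_simp
  ring

/-- Comparison of `num / den` with `1 / W`, where `W' = W / (1 - e t)`. -/
lemma compare {W : ℝ → ℝ} {e a : ℝ} (he0 : 0 ≤ e) (he : e ≤ 1 / 2) (ha : 0 ≤ a) (ha2 : a ≤ 2)
    (hea : e * a < 1) (hW0 : W 0 = 1) (hWp : ∀ t, 0 ≤ t → t ≤ a → 0 < W t)
    (hW : ∀ t, 0 ≤ t → t ≤ a → HasDerivAt W (W t / (1 - e * t)) t) :
    1 / W a ≤ num e 0 a / den e 0 a ∧ num e (1 / 36) a / den e (1 / 36) a ≤ 1 / W a := by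
  have het : ∀ t, 0 ≤ t → t ≤ a → 0 < 1 - e * t := fun t h0 h1 => by
    linarith [mul_le_mul_of_nonneg_left h1 he0]
  have hder : ∀ g : ℝ, 0 ≤ g → ∀ t, 0 ≤ t → t ≤ a →
      HasDerivAt (fun s => num e g s * W s / den e g s)
        (-(W t * res e g t / ((1 - e * t) * den e g t ^ 2))) t := fun g hg t h0 h1 =>
    hasDerivAt_quot (den_pos he hg h0).ne' (het t h0 h1).ne' (hW t h0 h1)
  have hcont : ∀ g : ℝ, 0 ≤ g →
      ContinuousOn (fun s => num e g s * W s / den e g s) (Set.Icc 0 a) := fun g hg t ht =>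
    (hder g hg t ht.1 ht.2).continuousAt.continuousWithinAt
  have hin : ∀ {t : ℝ}, t ∈ interior (Set.Icc 0 a) → 0 ≤ t ∧ t ≤ a := fun ht => by
    rw [interior_Icc] at ht; exact ⟨ht.1.le, ht.2.le⟩
  have h0 : ∀ g : ℝ, num e g 0 * W 0 / den e g 0 = 1 := fun g => by simp [num, den, hW0]
  have hmem0 : (0 : ℝ) ∈ Set.Icc 0 a := ⟨le_rfl, ha⟩
  have hmema : a ∈ Set.Icc 0 a := ⟨ha, le_rfl⟩
  have hWa := hWp a ha le_rfl
  constructor
  · have hm := monotoneOn_of_hasDerivWithinAt_nonneg (convex_Icc 0 a) (hcont 0 le_rfl)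
      (fun t ht => (hder 0 le_rfl t (hin ht).1 (hin ht).2).hasDerivWithinAt) fun t ht => by
        obtain ⟨t0, t1⟩ := hin ht
        rw [neg_nonneg]
        exact div_nonpos_of_nonpos_of_nonneg
          (mul_nonpos_of_nonneg_of_nonpos (hWp t t0 t1).le (res_upper he0 he t0))
          (mul_nonneg (het t t0 t1).le (sq_nonneg _))
    have := hm hmem0 hmema ha
    simp only [h0] at this
    rw [div_le_iff₀ hWa]
    calc (1 : ℝ) ≤ num e 0 a * W a / den e 0 a := this
      _ = num e 0 a / den e 0 a * W a := by ring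
  · have hg : (0 : ℝ) ≤ 1 / 36 := by norm_num
    have hm := antitoneOn_of_hasDerivWithinAt_nonpos (convex_Icc 0 a) (hcont _ hg)
      (fun t ht => (hder _ hg t (hin ht).1 (hin ht).2).hasDerivWithinAt) fun t ht => by
        obtain ⟨t0, t1⟩ := hin ht
        rw [neg_nonpos]
        exact div_nonneg (mul_nonneg (hWp t t0 t1).le (res_lower he0 he t0 (t1.trans ha2)))
          (mul_nonneg (het t t0 t1).le (sq_nonneg _))
    have := hm hmem0 hmema ha
    simp only [h0] at this
    rw [le_div_iff₀ hWa]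
    calc num e (1 / 36) a / den e (1 / 36) a * W a
        = num e (1 / 36) a * W a / den e (1 / 36) a := by ring
      _ ≤ 1 := this

lemma num_div_den {e g a : ℝ} (hd : den e g a ≠ 0) :
    num e g a / den e g a = 1 - a + (1 - e) * (a ^ 2 / 2) / den e g a := by
  rw [num, eq_comm, eq_div_iff hd, add_mul, div_mul_cancel₀ _ hd]
  ring

end Pade

open Pade in
/-- Bounds for a Poisson number of children. -/
theorem genBounds_poisson {d A : ℝ} (hd : 0 < d) (hA : A ≤ 2) :
    GenBounds (genPoisson d) d 1 (1 / 3) (1 / 36) A := by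
  refine ⟨hd, zero_le_one, by norm_num, by norm_num, by unfold genPoisson; fun_prop,
    fun a ha haA _ => ?_⟩
  have hG : genPoisson d (1 - a / d) = 1 / Real.exp a := by
    rw [genPoisson, one_div, ← Real.exp_neg]
    congr 1
    field_simp
    ring
  obtain ⟨hu, hl⟩ := compare (e := 0) (a := a) le_rfl (by norm_num) ha (haA.trans hA) (by simp)
    Real.exp_zero (fun t _ _ => Real.exp_pos t) fun t _ _ => by simpa using Real.hasDerivAt_exp t
  have h0 := den_pos (e := 0) (g := 0) (by norm_num) le_rfl ha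
  have h1 := den_pos (e := 0) (g := 1 / 36) (by norm_num) (by norm_num) ha
  rw [num_div_den h0.ne'] at hu
  rw [num_div_den h1.ne'] at hl
  simp only [den, mul_zero, sub_zero, zero_mul, add_zero] at hu hl
  rw [hG]
  exact ⟨by linarith, by linarith⟩

open Pade in
/-- Bounds for `d ≥ 2` children. -/
theorem genBounds_regular {d : ℕ} {A : ℝ} (hd : 2 ≤ d) (hA : A ≤ 2) :
    GenBounds (genRegular d) (d : ℝ) (1 - 1 / d) ((1 - 2 / d) / 3) (1 / 36) A := by
  have hd' : (2 : ℝ) ≤ d := by exact_mod_cast hd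
  have he : (1 : ℝ) / d ≤ 1 / 2 := by gcongr
  have he2 : (2 : ℝ) / d = 2 * (1 / d) := by ring
  refine ⟨by linarith, by linarith, by linarith, by norm_num, by unfold genRegular; fun_prop,
    fun a ha haA had => ?_⟩
  rcases had.eq_or_lt with heq | hlt
  · have h2 : (d : ℝ) = 2 := le_antisymm (heq ▸ haA.trans hA) hd'
    have hd2 : d = 2 := by exact_mod_cast h2
    have hG : genRegular d (1 - a / d) = 0 := by
      rw [genRegular, heq, div_self (by linarith), sub_self, zero_pow (by omega)]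
    rw [hG, heq]
    subst hd2
    norm_num
  · set e := (1 : ℝ) / d with hedef
    have hde : (d : ℝ) * e = 1 := by rw [hedef]; field_simp
    have hpos : ∀ t, 0 ≤ t → t ≤ a → 0 < 1 - e * t := fun t _ h1 => by
      have : e * t < 1 := by
        calc e * t ≤ e * a := mul_le_mul_of_nonneg_left h1 (by positivity)
          _ < e * d := mul_lt_mul_of_pos_left hlt (by positivity)
          _ = 1 := by rw [mul_comm, hde]
      linarith
    have hea : e * a < 1 := by linarith [hpos a ha le_rfl]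
    obtain ⟨hu, hl⟩ := compare (W := fun t => ((1 - e * t) ^ d)⁻¹) (by positivity) he ha
      (haA.trans hA) hea (by simp) (fun t h0 h1 => inv_pos.2 (pow_pos (hpos t h0 h1) d))
      fun t h0 h1 => by
        have hp := hpos t h0 h1
        have := ((((hasDerivAt_id t).const_mul e).const_sub 1).pow d).inv (pow_ne_zero d hp.ne')
        refine this.congr_deriv ?_
        obtain ⟨m, rfl⟩ := Nat.exists_eq_add_of_le' (show 1 ≤ d by omega)
        simp only [Pi.pow_apply, Nat.add_sub_cancel, id]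
        rw [pow_succ (1 - e * t) m]
        field_simp
        linear_combination hde
    have hG : 1 / (fun t => ((1 - e * t) ^ d)⁻¹) a = genRegular d (1 - a / d) := by
      simp only [one_div, inv_inv, genRegular, hedef]
      ring
    rw [hG] at hu hl
    have h0 := den_pos he (le_refl (0 : ℝ)) ha
    have h1 := den_pos he (show (0 : ℝ) ≤ 1 / 36 by norm_num) ha
    rw [num_div_den h0.ne'] at hu
    rw [num_div_den h1.ne'] at hl
    simp only [den, zero_mul, add_zero, ← he2] at hu hl
    exact ⟨by linarith, by linarith⟩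

end Vale.Agent.P154
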