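import Vale.Agent.P154.Defs

/-!
Symmetric laws of normalised posterior deviations `u` (`∑ u = 0`, `u ≥ -1`), seen as
positive linear functionals, with the two tree operations: scaling and merging.
-/

namespace Vale.Agent.P154

/-- Deviations of a probability vector, normalised by `u i = q * p i - 1`. -/
def Dev {q : ℕ} (u : Fin q → ℝ) : Prop := (∑ i, u i = 0) ∧ ∀ i, -1 ≤ u i

/-- Normalising weight of the combination of two observations. -/
noncomputable def mz {q : ℕ} (u v : Fin q → ℝ) : ℝ := (∑ i, (1 + u i) * (1 + v i)) / q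

/-- Deviation after combining two observations. -/
noncomputable def merged {q : ℕ} (u v : Fin q → ℝ) : Fin q → ℝ :=
  fun i => (1 + u i) * (1 + v i) / mz u v - 1

/-- A symmetric law of deviations, as an expectation functional. -/
structure Law (q : ℕ) where
  E : ((Fin q → ℝ) → ℝ) →ₗ[ℝ] ℝ
  mono : ∀ g h, (∀ u, Dev u → g u ≤ h u) → E g ≤ E h
  one : E (fun _ => 1) = 1
  symm : ∀ (σ : Equiv.Perm (Fin q)) g, E (fun u => g (u ∘ σ)) = E g

/-- Normalised second moment, with values in `[0,1]`. -/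
noncomputable def ss {q : ℕ} (u : Fin q → ℝ) : ℝ := (∑ i, u i ^ 2) / (q * (q - 1 : ℝ))

/-- The second moment of a law. -/
noncomputable def Law.S {q : ℕ} (A : Law q) : ℝ := A.E ss

theorem Law.congr {q : ℕ} (A : Law q) {g h : (Fin q → ℝ) → ℝ}
    (e : ∀ u, Dev u → g u = h u) : A.E g = A.E h :=
  le_antisymm (A.mono g h fun u hu => (e u hu).le) (A.mono h g fun u hu => (e u hu).ge)

theorem Law.const {q : ℕ} (A : Law q) (c : ℝ) : A.E (fun _ => c) = c := by
  have h : (fun _ : Fin q → ℝ => c) = c • (fun _ => (1 : ℝ)) := by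
    ext; simp
  rw [h, map_smul, A.one, smul_eq_mul, mul_one]

theorem Law.smul_fun {q : ℕ} (A : Law q) (c : ℝ) (g : (Fin q → ℝ) → ℝ) :
    A.E (fun u => c * g u) = c * A.E g := by
  have h : (fun u => c * g u) = c • g := by ext; simp
  rw [h, map_smul, smul_eq_mul]

theorem Law.add_fun {q : ℕ} (A : Law q) (g h : (Fin q → ℝ) → ℝ) :
    A.E (fun u => g u + h u) = A.E g + A.E h := map_add A.E g h

theorem Law.sub_fun {q : ℕ} (A : Law q) (g h : (Fin q → ℝ) → ℝ) :
    A.E (fun u => g u - h u) = A.E g - A.E h := map_sub A.E g h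

theorem Law.avg {q : ℕ} (A : Law q) (g : (Fin q → ℝ) → ℝ) :
    A.E (fun u => (∑ σ : Equiv.Perm (Fin q), g (u ∘ σ)) / (Fintype.card (Equiv.Perm (Fin q)))) =
      A.E g := by
  have h : (fun u => (∑ σ : Equiv.Perm (Fin q), g (u ∘ σ)) / (Fintype.card (Equiv.Perm (Fin q)) : ℝ))
      = (1 / (Fintype.card (Equiv.Perm (Fin q)) : ℝ)) •
        ∑ σ : Equiv.Perm (Fin q), fun u => g (u ∘ σ) := by
    ext u; simp [Finset.sum_apply, div_eq_inv_mul]
  rw [h, map_smul, map_sum]
  simp [A.symm]

theorem dev_zero {q : ℕ} : Dev (0 : Fin q → ℝ) := by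
  constructor <;> simp

theorem Dev.comp {q : ℕ} {u : Fin q → ℝ} (h : Dev u) (σ : Equiv.Perm (Fin q)) : Dev (u ∘ σ) :=
  ⟨by simpa using (Equiv.sum_comp σ u).trans h.1, fun i => h.2 (σ i)⟩

theorem Dev.le_sub {q : ℕ} {u : Fin q → ℝ} (h : Dev u) (i : Fin q) : u i ≤ q - 1 := by
  have h1 := Finset.single_le_sum (f := fun j => 1 + u j) (fun j _ => by linarith [h.2 j])
    (Finset.mem_univ i)
  rw [Finset.sum_add_distrib, h.1] at h1
  simp at h1
  linarith

theorem Dev.scale {q : ℕ} (hq : 2 ≤ q) {u : Fin q → ℝ} (h : Dev u) {lam : ℝ}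
    (hl : -(1 / ((q : ℝ) - 1)) ≤ lam) (hl' : lam ≤ 1) : Dev (fun i => lam * u i) := by
  have hq' : (0 : ℝ) < (q : ℝ) - 1 := by
    have : (2 : ℝ) ≤ q := by exact_mod_cast hq
    linarith
  refine ⟨by rw [← Finset.mul_sum, h.1, mul_zero], fun i => ?_⟩
  show -1 ≤ lam * u i
  have h1 := h.2 i
  have h2 := h.le_sub i
  rcases le_or_gt 0 lam with hpos | hneg
  · nlinarith
  · have h3 : -1 ≤ lam * ((q : ℝ) - 1) := by
      have := mul_le_mul_of_nonneg_right hl hq'.le
      rwa [neg_mul, div_mul_cancel₀ _ hq'.ne'] at this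
    nlinarith

theorem mz_nonneg {q : ℕ} {u v : Fin q → ℝ} (hu : Dev u) (hv : Dev v) : 0 ≤ mz u v := by
  apply div_nonneg _ (Nat.cast_nonneg q)
  exact Finset.sum_nonneg fun i _ => mul_nonneg (by linarith [hu.2 i]) (by linarith [hv.2 i])

theorem Dev.merged {q : ℕ} {u v : Fin q → ℝ} (hu : Dev u) (hv : Dev v) (hz : mz u v ≠ 0) :
    Dev (merged u v) := by
  have hq : (q : ℝ) ≠ 0 := by
    intro h; apply hz; simp [mz, h]
  have hpos : 0 < mz u v := lt_of_le_of_ne (mz_nonneg hu hv) (Ne.symm hz)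
  constructor
  · simp only [Vale.Agent.P154.merged, Finset.sum_sub_distrib, ← Finset.sum_div]
    have : (∑ i, (1 + u i) * (1 + v i)) = mz u v * q := by
      rw [mz, div_mul_cancel₀ _ hq]
    rw [this, mul_div_assoc, mul_div_left_comm]
    simp [hz]
  · intro i
    simp only [Vale.Agent.P154.merged]
    have := div_nonneg (mul_nonneg (by linarith [hu.2 i] : (0:ℝ) ≤ 1 + u i)
      (by linarith [hv.2 i] : (0:ℝ) ≤ 1 + v i)) hpos.le
    linarith

theorem Law.mean_zero {q : ℕ} (A : Law q) (i : Fin q) : A.E (fun u => u i) = 0 := by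
  have h1 : ∀ j, A.E (fun u => u j) = A.E (fun u => u i) := by
    intro j
    have := A.symm (Equiv.swap i j) (fun u => u i)
    simpa using this
  have h2 : A.E (fun u => ∑ j, u j) = 0 := by
    rw [A.congr (h := fun _ => (0 : ℝ)) (fun u hu => hu.1), A.const]
  have h3 : (fun u : Fin q → ℝ => ∑ j, u j) = ∑ j, fun u : Fin q → ℝ => u j := by
    ext u; simp [Finset.sum_apply]
  rw [h3, map_sum, Finset.sum_congr rfl (fun j _ => h1 j)] at h2
  simp only [Finset.sum_const, Finset.card_univ, Fintype.card_fin, nsmul_eq_mul, mul_eq_zero] at h2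
  rcases h2 with h2 | h2
  · exact absurd (Nat.cast_eq_zero.mp h2) (by have := i.pos; omega)
  · exact h2

theorem Law.E_mz {q : ℕ} (hq : 0 < q) (A : Law q) (u : Fin q → ℝ) (hu : Dev u) :
    A.E (fun v => mz u v) = 1 := by
  have hq' : (q : ℝ) ≠ 0 := Nat.cast_ne_zero.mpr hq.ne'
  have h : (fun v => mz u v) = (fun _ => (1 : ℝ)) + ∑ i, ((1 + u i) / q) • (fun v => v i) := by
    ext v
    simp only [mz, Pi.add_apply, Finset.sum_apply, Pi.smul_apply, smul_eq_mul, mul_add,
      mul_one, add_mul, one_mul, Finset.sum_add_distrib, hu.1, Finset.sum_const, Finset.card_univ,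
      Fintype.card_fin, nsmul_eq_mul, add_div, Finset.sum_div]
    field_simp
    ring
  rw [h, map_add, map_sum, A.one]
  simp [A.mean_zero]

/-- The law concentrated at no information. -/
def Law.unit (q : ℕ) : Law q where
  E := LinearMap.proj 0
  mono := fun _ _ e => e 0 dev_zero
  one := rfl
  symm := fun σ g => by simp

/-- Passing a law through one edge. -/
def Law.scale {q : ℕ} (hq : 2 ≤ q) (lam : ℝ) (hl : -(1 / ((q : ℝ) - 1)) ≤ lam) (hl' : lam ≤ 1)
    (A : Law q) : Law q where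
  E := A.E ∘ₗ LinearMap.funLeft ℝ ℝ (fun u : Fin q → ℝ => fun i => lam * u i)
  mono := fun g h e => A.mono _ _ fun u hu => e _ (hu.scale hq hl hl')
  one := A.one
  symm := fun σ g => A.symm σ (fun u => g fun i => lam * u i)

theorem Law.scale_E {q : ℕ} (hq : 2 ≤ q) (lam : ℝ) (hl : -(1 / ((q : ℝ) - 1)) ≤ lam)
    (hl' : lam ≤ 1) (A : Law q) (g : (Fin q → ℝ) → ℝ) :
    (A.scale hq lam hl hl').E g = A.E (fun u => g fun i => lam * u i) := rfl

theorem mz_comp {q : ℕ} (σ : Equiv.Perm (Fin q)) (u v : Fin q → ℝ) :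
    mz (u ∘ σ) (v ∘ σ) = mz u v := by
  unfold mz
  rw [← Equiv.sum_comp σ (fun i => (1 + u i) * (1 + v i))]
  rfl

theorem merged_comp {q : ℕ} (σ : Equiv.Perm (Fin q)) (u v : Fin q → ℝ) :
    merged (u ∘ σ) (v ∘ σ) = merged u v ∘ σ := by
  ext i; simp [merged, mz_comp]

/-- The two-observation kernel. -/
noncomputable def kernel {q : ℕ} (B : Law q) :
    ((Fin q → ℝ) → ℝ) →ₗ[ℝ] ((Fin q → ℝ) → ℝ) where
  toFun g u := B.E (fun v => mz u v * g (merged u v))
  map_add' g h := by
    ext u
    simp only [Pi.add_apply, ← B.add_fun, mul_add]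
  map_smul' c g := by
    ext u
    simp only [Pi.smul_apply, smul_eq_mul, RingHom.id_apply, ← B.smul_fun]
    congr 1; ext v; ring

/-- The law of the combination of two conditionally independent observations. -/
noncomputable def Law.merge {q : ℕ} (hq : 0 < q) (A B : Law q) : Law q where
  E := A.E ∘ₗ kernel B
  mono := fun g h e => A.mono _ _ fun u hu => B.mono _ _ fun v hv => by
    by_cases hz : mz u v = 0
    · simp [hz]
    · exact mul_le_mul_of_nonneg_left (e _ (hu.merged hv hz)) (mz_nonneg hu hv)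
  one := by
    show A.E (fun u => B.E (fun v => mz u v * 1)) = 1
    rw [A.congr (h := fun _ => (1 : ℝ)) (fun u hu => by simp [B.E_mz hq u hu]), A.one]
  symm := fun σ g => by
    show A.E (fun u => B.E (fun v => mz u v * g (merged u v ∘ σ))) = _
    have h : ∀ u, B.E (fun v => mz u v * g (merged u v ∘ σ)) =
        B.E (fun v => mz (u ∘ σ) v * g (merged (u ∘ σ) v)) := by
      intro u
      rw [← B.symm σ (fun v => mz (u ∘ σ) v * g (merged (u ∘ σ) v))]
      simp [mz_comp, merged_comp]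
    simp only [h]
    exact A.symm σ (fun u => B.E (fun v => mz u v * g (merged u v)))

theorem Law.merge_E {q : ℕ} (hq : 0 < q) (A B : Law q) (g : (Fin q → ℝ) → ℝ) :
    (A.merge hq B).E g = A.E (fun u => B.E (fun v => mz u v * g (merged u v))) := rfl

/-- The law at a vertex whose `k` children, after their edges, have laws `f`. -/
noncomputable def Law.node {q : ℕ} (hq : 0 < q) : (k : ℕ) → (Fin k → Law q) → Law q
  | 0, _ => Law.unit q
  | k + 1, f => (f 0).merge hq (Law.node hq k fun c => f c.succ)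

/-- Deviation when the spin is seen to be `k`. -/
def vertex {q : ℕ} (k : Fin q) : Fin q → ℝ := fun i => if i = k then (q : ℝ) - 1 else -1

theorem dev_vertex {q : ℕ} (k : Fin q) : Dev (vertex k) := by
  constructor
  · have : (fun i => vertex k i) = fun i => (if i = k then (q : ℝ) else 0) - 1 := by
      ext i; simp only [vertex]; split <;> ring
    rw [this, Finset.sum_sub_distrib]
    simp
  · intro i
    simp only [vertex]
    split
    · have : (1 : ℝ) ≤ q := by exact_mod_cast k.pos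
      linarith
    · exact le_rfl

/-- The law of an exactly observed uniform spin. -/
noncomputable def Law.leaf {q : ℕ} (hq : 0 < q) : Law q where
  E := (1 / (q : ℝ)) • ∑ k : Fin q, LinearMap.proj (vertex k)
  mono := fun g h e => by
    simp only [LinearMap.smul_apply, LinearMap.coe_sum, Finset.sum_apply, LinearMap.coe_proj,
      Function.eval, smul_eq_mul]
    apply mul_le_mul_of_nonneg_left _ (by positivity)
    exact Finset.sum_le_sum fun k _ => e _ (dev_vertex k)
  one := by
    simp [Nat.pos_iff_ne_zero.mp hq]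
  symm := fun σ g => by
    simp only [LinearMap.smul_apply, LinearMap.coe_sum, Finset.sum_apply, LinearMap.coe_proj,
      Function.eval, smul_eq_mul]
    congr 1
    refine Fintype.sum_equiv σ.symm _ _ (fun k => ?_)
    congr 1
    ext i
    simp [vertex, Equiv.eq_symm_apply]

theorem Law.leaf_E {q : ℕ} (hq : 0 < q) (g : (Fin q → ℝ) → ℝ) :
    (Law.leaf hq).E g = (∑ k, g (vertex k)) / q := by
  simp [Law.leaf, div_eq_inv_mul]

/-- Affinity kernel with exponents `α`. -/
noncomputable def aff {q : ℕ} (α : Fin q → ℝ) (u : Fin q → ℝ) : ℝ := ∏ i, (1 + u i) ^ α i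

theorem Law.merge_aff {q : ℕ} (hq : 0 < q) (A B : Law q) (α : Fin q → ℝ) (h0 : ∀ i, 0 ≤ α i)
    (h1 : ∑ i, α i = 1) : (A.merge hq B).E (aff α) = A.E (aff α) * B.E (aff α) := by
  rw [Law.merge_E, mul_comm, ← A.smul_fun (B.E (aff α)) (aff α)]
  refine A.congr fun u hu => ?_
  rw [mul_comm, ← B.smul_fun (aff α u) (aff α)]
  refine B.congr fun v hv => ?_
  have hu0 : ∀ i, 0 ≤ 1 + u i := fun i => by linarith [hu.2 i]
  have hv0 : ∀ i, 0 ≤ 1 + v i := fun i => by linarith [hv.2 i]
  by_cases hz : mz u v = 0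
  · obtain ⟨j, hj⟩ : ∃ j, α j ≠ 0 := by
      by_contra h
      push_neg at h
      simp [h] at h1
    have hs : (∑ i, (1 + u i) * (1 + v i)) = 0 := by
      rcases (div_eq_zero_iff.mp hz) with h | h
      · exact h
      · exact absurd (Nat.cast_eq_zero.mp h) hq.ne'
    have hj0 : (1 + u j) * (1 + v j) = 0 :=
      (Finset.sum_eq_zero_iff_of_nonneg fun i _ => mul_nonneg (hu0 i) (hv0 i)).mp hs j
        (Finset.mem_univ j)
    rw [hz, zero_mul]
    symm
    rcases mul_eq_zero.mp hj0 with h | h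
    · have e : aff α u = 0 :=
        Finset.prod_eq_zero (Finset.mem_univ j) (by rw [h, Real.zero_rpow hj])
      rw [e, zero_mul]
    · have e : aff α v = 0 :=
        Finset.prod_eq_zero (Finset.mem_univ j) (by rw [h, Real.zero_rpow hj])
      rw [e, mul_zero]
  · have hpos : 0 < mz u v := lt_of_le_of_ne (mz_nonneg hu hv) (Ne.symm hz)
    have hi : ∀ i, (1 + merged u v i) ^ α i =
        (1 + u i) ^ α i * (1 + v i) ^ α i / mz u v ^ α i := by
      intro i
      rw [← Real.mul_rpow (hu0 i) (hv0 i), ← Real.div_rpow (mul_nonneg (hu0 i) (hv0 i)) hpos.le]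
      simp [merged]
    simp only [aff, hi, Finset.prod_div_distrib, Finset.prod_mul_distrib]
    rw [← Real.rpow_sum_of_pos hpos α Finset.univ, h1, Real.rpow_one, mul_div_cancel₀ _ hz]

theorem Law.node_aff {q : ℕ} (hq : 0 < q) (α : Fin q → ℝ) (h0 : ∀ i, 0 ≤ α i)
    (h1 : ∑ i, α i = 1) : ∀ (k : ℕ) (f : Fin k → Law q),
    (Law.node hq k f).E (aff α) = ∏ c, (f c).E (aff α)
  | 0, _ => by
    show aff α (0 : Fin q → ℝ) = _
    simp [aff]
  | k + 1, f => by
    show ((f 0).merge hq (Law.node hq k fun c => f c.succ)).E (aff α) = _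
    rw [Law.merge_aff hq _ _ α h0 h1, Law.node_aff hq α h0 h1 k, Fin.prod_univ_succ]

end Vale.Agent.P154
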